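import Vale.Agent.P338.H932.WrapM

/-!
# P338: the multiplying machine of a stack program

`mulMachine P rin rout inj isep dec` loads its input `x#y` reversed on the stack `rin` (so the last
bit of `y` is on top; bits as `inj b`, the separator as `isep`), runs the program `P` and writes
the stack `rout` (top first, `dec` of each symbol) on its output tape.
-/

namespace Vale.Agent.P338

open Machine (written)

variable {R Γ : Type} [Fintype R] [DecidableEq R] [Finite Γ]

/-- the stack symbol of an input letter -/
def injM {Γ : Type} (inj : Bool → Γ) (isep : Γ) : Option Bool → Γ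
  | none => isep
  | some b => inj b

/-- The machine of a stack program, for inputs `x#y`. -/
noncomputable def mulMachine (P : Prog R Γ) (rin rout : R) (inj : Bool → Γ) (isep : Γ)
    (dec : Γ → Bool) : Machine :=
  WrapM.machine (H51.TA.ofProg P) rin rout (injM inj isep) dec

theorem mulInput_eq {E : Type} (x y : List Bool) :
    (mulInput x y : List (Symb E)) = (x.map some ++ none :: y.map some).map WrapM.wsym := by
  simp [mulInput, WrapM.wsym, Function.comp_def]

theorem mulMachine_haltsAt (P : Prog R Γ) (rin rout : R) (inj : Bool → Γ) (isep : Γ)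
    (dec : Γ → Bool) (hdec : ∀ b, dec (inj b) = b) (x y z : List Bool) {s' : Store R Γ} {c : ℕ}
    (h : Runs P (Function.update (fun _ => []) rin
      (y.reverse.map inj ++ isep :: x.reverse.map inj)) s' c)
    (hz : s' rout = z.map inj) :
    ∃ t, t ≤ 2 * (c + x.length + y.length + z.length + 2) ∧ ∃ cfg,
      (mulMachine P rin rout inj isep dec).HaltsAt (mulInput x y) t cfg ∧
      cfg.tape (mulMachine P rin rout inj isep dec).out = written (z.map Symb.bit) := by
  obtain ⟨n, hn, h1⟩ := compile_exits h
  have h2 := H51.exitsIn_of_exits h1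
  rw [H51.toTC_enc, H51.toTC_enc] at h2
  have e : y.reverse.map inj ++ isep :: x.reverse.map inj
      = ((x.map some ++ none :: y.map some).map (injM inj isep)).reverse := by
    simp [injM, Function.comp_def, List.map_reverse]
  rw [e] at h2
  obtain ⟨cfg, h3, h4⟩ := WrapM.machine_haltsAt (H51.TA.ofProg P) rin rout (injM inj isep) dec
    (x.map some ++ none :: y.map some) h2 (z.map inj) (by simp [H51.encS, hz])
  rw [← mulInput_eq] at h3
  refine ⟨_, ?_, cfg, h3, ?_⟩
  · simp only [List.length_map, List.length_append, List.length_cons]; omega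
  · refine h4.trans ?_
    have hc : dec ∘ inj = id := funext hdec
    have : (z.map inj).map dec = z := by rw [List.map_map, hc, List.map_id]
    rw [this]
    rfl

/-- **The machine of a program that multiplies.** -/
theorem mulMachine_multiplies (P : Prog R Γ) (rin rout : R) (inj : Bool → Γ) (isep : Γ)
    (dec : Γ → Bool) (hdec : ∀ b, dec (inj b) = b) (cost : ℕ → ℕ)
    (h : ∀ n : ℕ, 1 ≤ n → ∀ x y : List Bool, x.length = n → y.length = n → ∃ s',
      Runs P (Function.update (fun _ => []) rin
        (y.reverse.map inj ++ isep :: x.reverse.map inj)) s' (cost n) ∧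
      s' rout = (bin (2 * n) (val x * val y)).map inj) :
    Multiplies (mulMachine P rin rout inj isep dec) ∧
      ∀ n, 1 ≤ n → mulTime (mulMachine P rin rout inj isep dec) n ≤ 2 * (cost n + 4 * n + 2) := by
  constructor
  · intro n hn x y hx hy
    obtain ⟨s', h1, h2⟩ := h n hn x y hx hy
    obtain ⟨t, _, cfg, h3, h4⟩ := mulMachine_haltsAt P rin rout inj isep dec hdec x y _ h1 h2
    exact ⟨t, cfg, h3, h4⟩
  · intro n hn
    refine Finset.sup_le fun p _ => ?_
    have hx : (List.ofFn p.1).length = n := List.length_ofFn
    have hy : (List.ofFn p.2).length = n := List.length_ofFn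
    obtain ⟨s', h1, h2⟩ := h n hn _ _ hx hy
    obtain ⟨t, ht, cfg, h3, _⟩ := mulMachine_haltsAt P rin rout inj isep dec hdec _ _ _ h1 h2
    rw [length_bin, hx, hy] at ht
    rw [h3.runTime_eq]
    omega

end Vale.Agent.P338
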