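import Vale.Agent.P338.CoreSpec
import Vale.Agent.P338.Lang

/-!
# Powers of two on rulers

`pow2`: with `r = zer k`, all others empty, computes `B = zer (2 ^ k)`, `r` restored.
-/

namespace Vale.Agent.P338

namespace H932

theorem zer_succ (n : ℕ) : zer (n + 1) = false :: zer n := rfl

theorem zer_zero : zer 0 = [] := rfl

theorem zer_add (m n : ℕ) : zer m ++ zer n = zer (m + n) := by
  simp [zer]

theorem zer_length (n : ℕ) : (zer n).length = n := by simp [zer]

theorem zer_reverse (n : ℕ) : (zer n).reverse = zer n := by simp [zer]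

/-- registers of `pow2` -/
inductive PR : Type
  | r | q | B | c1 | c2
  deriving DecidableEq

/-- a store of rulers -/
def pst (r q B c1 c2 : ℕ) : Store PR Bool
  | .r => zer r
  | .q => zer q
  | .B => zer B
  | .c1 => zer c1
  | .c2 => zer c2

/-- one tick of the doubling -/
def dblStep : Prog PR Bool := .act fun _ r =>
  match r with
  | .B => .pop
  | .c1 => .push false
  | .c2 => .push false
  | _ => .nop

/-- `B := 2 B` -/
def dbl : Prog PR Bool :=
  .seq (.whileNE .B dblStep) (.seq (.flip .c1 .B) (.flip .c2 .B))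

theorem dblStep_runs (r q B c1 c2 : ℕ) :
    Runs dblStep (pst r q (B + 1) c1 c2) (pst r q B (c1 + 1) (c2 + 1)) 1 := by
  refine (Runs.act _ _).conv ?_ le_rfl
  funext r
  cases r <;> simp [pst, Op.app, zer_succ]

theorem dblLoop_runs (r q B c1 c2 : ℕ) :
    Runs (.whileNE .B dblStep) (pst r q B c1 c2) (pst r q 0 (c1 + B) (c2 + B))
      (2 * B + 1) := by
  induction B generalizing c1 c2 with
  | zero => exact (Runs.whileNE_nil rfl).conv (by simp) (by simp)
  | succ B ih =>
    refine (Runs.whileNE_cons (r := .B) (s := pst r q (B + 1) c1 c2) rfl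
      (dblStep_runs r q B c1 c2) (ih (c1 + 1) (c2 + 1))).conv ?_ (by omega)
    rw [show c1 + 1 + B = c1 + (B + 1) by omega, show c2 + 1 + B = c2 + (B + 1) by omega]

theorem dbl_runs (r q B : ℕ) :
    Runs dbl (pst r q B 0 0) (pst r q (2 * B) 0 0) (6 * B + 3) := by
  have h1 := dblLoop_runs r q B 0 0
  have h2 : Runs (.flip .c1 .B) (pst r q 0 (0 + B) (0 + B))
      (pst r q B 0 B) (2 * B + 1) := by
    refine (Runs.flip (r := PR.c1) (q := PR.B) (by decide) _).conv ?_ (by simp [pst, zer_length])
    funext r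
    cases r <;> simp [pst, zer_zero, zer_reverse]
  have h3 : Runs (.flip .c2 .B) (pst r q B 0 B)
      (pst r q (2 * B) 0 0) (2 * B + 1) := by
    refine (Runs.flip (r := PR.c2) (q := PR.B) (by decide) _).conv ?_ (by simp [pst, zer_length])
    funext r
    cases r <;> simp [pst, zer_zero, zer_reverse, zer_add, two_mul]
  exact (h1.seq' (h2.seq' h3 le_rfl) (by omega))

/-- `B := 2 ^ r * B`, `q := q + r`, `r := 0` -/
def powLoop : Prog PR Bool := .whileNE .r (.seq (.mv .r .q) dbl)

theorem powLoop_runs (r q B c : ℕ) (hB : 1 ≤ B) (hc : 12 * (2 ^ r * B) + 1 ≤ c + 12 * B) :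
    Runs powLoop (pst r q B 0 0) (pst 0 (q + r) (2 ^ r * B) 0 0) c := by
  induction r generalizing q B c with
  | zero => exact (Runs.whileNE_nil rfl).conv (by simp) (by omega)
  | succ r ih =>
    have h1 : Runs (.mv .r .q) (pst (r + 1) q B 0 0) (pst r (q + 1) B 0 0) 1 := by
      refine (Runs.mv_cons (r := PR.r) (q := PR.q) (a := false) (l := zer r) (by decide)
        rfl).conv ?_ le_rfl
      funext r
      cases r <;> simp [pst, zer_succ]
    have h2 := dbl_runs r (q + 1) B
    have e1 : 2 ^ (r + 1) * B = 2 ^ r * (2 * B) := by ring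
    rw [e1] at hc
    have e2 : 2 * B ≤ 2 ^ r * (2 * B) := Nat.le_mul_of_pos_left _ (by positivity)
    refine (Runs.whileNE_cons (r := .r) (s := pst (r + 1) q B 0 0) rfl (h1.seq h2)
      (ih (q + 1) (2 * B) (c - 6 * B - 5) (by omega) (by omega))).conv ?_ (by omega)
    rw [show q + 1 + r = q + (r + 1) by omega, e1]

/-- `B := zer (2 ^ |r|)`; `r` is restored -/
def pow2 : Prog PR Bool := .seq (.push .B false) (.seq powLoop (.flip .q .r))

theorem pow2_runs (k : ℕ) : Runs pow2 (pst k 0 0 0 0) (pst k 0 (2 ^ k) 0 0) (16 * 2 ^ k) := by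
  have h1 : Runs (.push .B false) (pst k 0 0 0 0) (pst k 0 1 0 0) 1 := by
    refine (Runs.push PR.B false _).conv ?_ le_rfl
    funext r
    cases r <;> simp [pst, zer_succ, zer_zero]
  have h2 := powLoop_runs k 0 1 (12 * 2 ^ k + 1) le_rfl (by omega)
  rw [Nat.zero_add, Nat.mul_one] at h2
  have h3 : Runs (.flip .q .r) (pst 0 k (2 ^ k) 0 0) (pst k 0 (2 ^ k) 0 0) (2 * k + 1) := by
    refine (Runs.flip (r := PR.q) (q := PR.r) (by decide) _).conv ?_ (by simp [pst, zer_length])
    funext r
    cases r <;> simp [pst, zer_zero, zer_reverse]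
  have h4 : k < 2 ^ k := Nat.lt_two_pow_self
  exact h1.seq' (h2.seq' h3 le_rfl) (by omega)

end H932

end Vale.Agent.P338
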