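import Vale.Agent.P338.CoreSpec

/-!
# Transposition as rotation, column shear, rotation (index level and list level)

All matrices are `n × n`; `matL n X` lists the entries row by row.  The column shear is split
according to the binary digits of the column number.
-/

namespace Vale.Agent.P338

namespace H932

/-! ### `cat` -/

@[simp] theorem cat_zero (f : ℕ → List Bool) : cat 0 f = [] := rfl

theorem cat_succ (n : ℕ) (f : ℕ → List Bool) : cat (n + 1) f = cat n f ++ f n := by
  simp [cat, List.range_succ]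

theorem cat_succ' (n : ℕ) (f : ℕ → List Bool) :
    cat (n + 1) f = f 0 ++ cat n (fun i => f (i + 1)) := by
  simp [cat, List.range_succ_eq_map, List.flatMap_map]

@[simp] theorem cat_one (f : ℕ → List Bool) : cat 1 f = f 0 := by
  simp [cat]

theorem cat_add (m n : ℕ) (f : ℕ → List Bool) :
    cat (m + n) f = cat m f ++ cat n (fun i => f (m + i)) := by
  induction n with
  | zero => simp
  | succ n ih => rw [← Nat.add_assoc, cat_succ, ih, cat_succ]; simp

theorem cat_congr {n : ℕ} {f g : ℕ → List Bool} (h : ∀ i, i < n → f i = g i) :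
    cat n f = cat n g := by
  induction n with
  | zero => rfl
  | succ n ih =>
    rw [cat_succ, cat_succ, ih (fun i hi => h i (by omega)), h n (by omega)]

theorem cat_length {n p : ℕ} {f : ℕ → List Bool} (h : ∀ i, i < n → (f i).length = p) :
    (cat n f).length = n * p := by
  induction n with
  | zero => simp
  | succ n ih =>
    rw [cat_succ, List.length_append, ih (fun i hi => h i (by omega)), h n (by omega)]
    ring

/-- splitting an index into two digits -/
theorem cat_mul (m n : ℕ) (f : ℕ → List Bool) :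
    cat (m * n) f = cat m (fun i => cat n (fun j => f (i * n + j))) := by
  induction m with
  | zero => simp
  | succ m ih => rw [Nat.succ_mul, cat_add, ih, cat_succ]

end H932

open H932

/-! ### Matrices -/

/-- the entries of an `n × n` matrix, row by row -/
def matL (n : ℕ) (X : ℕ → ℕ → Bool) : List Bool := cat n fun i => cat n fun s => [X i s]

theorem matL_congr {n : ℕ} {X Y : ℕ → ℕ → Bool} (h : ∀ i s, i < n → s < n → X i s = Y i s) :
    matL n X = matL n Y :=
  cat_congr fun i hi => cat_congr fun s hs => by rw [h i s hi hs]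

@[simp] theorem matL_length (n : ℕ) (X : ℕ → ℕ → Bool) : (matL n X).length = n * n :=
  cat_length fun _ _ => by rw [cat_length (p := 1) (fun _ _ => rfl), Nat.mul_one]

/-- column `s` is moved down cyclically by `d s` rows -/
def colShift (n : ℕ) (d : ℕ → ℕ) (X : ℕ → ℕ → Bool) : ℕ → ℕ → Bool :=
  fun j s => X ((j + n - d s) % n) s

/-- row `i` is rotated to the right by `i + 1`; then the order of the rows is reversed -/
def rotIn (n : ℕ) (X : ℕ → ℕ → Bool) : ℕ → ℕ → Bool :=
  fun r s => X (n - 1 - r) ((s + r) % n)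

/-- row `j` is rotated to the left by `j + 1` -/
def rotOut (n : ℕ) (X : ℕ → ℕ → Bool) : ℕ → ℕ → Bool :=
  fun j i => X j ((i + j + 1) % n)

/-- Transposition = rotation, column shear, rotation. -/
theorem rotOut_colShift_rotIn {n : ℕ} (X : ℕ → ℕ → Bool) {i j : ℕ} (hi : i < n) (hj : j < n) :
    rotOut n (colShift n (fun s => s) (rotIn n X)) j i = X i j := by
  have hn : 0 < n := by omega
  simp only [rotOut, colShift, rotIn]
  set s : ℕ := (i + j + 1) % n with hs
  have hsn : s < n := Nat.mod_lt _ hn
  have h1 : (j + n - s) % n = n - 1 - i := by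
    rcases Nat.lt_or_ge (i + j + 1) n with h | h
    · have : s = i + j + 1 := Nat.mod_eq_of_lt h
      rw [this, show j + n - (i + j + 1) = n - 1 - i by omega, Nat.mod_eq_of_lt (by omega)]
    · have : s = i + j + 1 - n := by
        rw [hs, Nat.mod_eq_sub_mod h, Nat.mod_eq_of_lt (by omega)]
      rw [this, show j + n - (i + j + 1 - n) = (n - 1 - i) + n by omega, Nat.add_mod_right,
        Nat.mod_eq_of_lt (by omega)]
  rw [h1]
  have h2 : n - 1 - (n - 1 - i) = i := by omega
  rw [h2]
  congr 1
  rcases Nat.lt_or_ge (i + j + 1) n with h | h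
  · have : s = i + j + 1 := Nat.mod_eq_of_lt h
    rw [this, show i + j + 1 + (n - 1 - i) = j + n by omega, Nat.add_mod_right,
      Nat.mod_eq_of_lt hj]
  · have : s = i + j + 1 - n := by
      rw [hs, Nat.mod_eq_sub_mod h, Nat.mod_eq_of_lt (by omega)]
    rw [this, show i + j + 1 - n + (n - 1 - i) = j by omega, Nat.mod_eq_of_lt hj]

theorem colShift_zero {n : ℕ} (X : ℕ → ℕ → Bool) {i s : ℕ} (hi : i < n) :
    colShift n (fun _ => 0) X i s = X i s := by
  simp only [colShift, Nat.sub_zero, Nat.add_mod_right, Nat.mod_eq_of_lt hi]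

theorem colShift_colShift {n : ℕ} (d e : ℕ → ℕ) (X : ℕ → ℕ → Bool) {i s : ℕ}
    (h : d s + e s ≤ n) :
    colShift n d (colShift n e X) i s = colShift n (fun s => d s + e s) X i s := by
  simp only [colShift]
  congr 1
  have h1 : i + n - (d s + e s) + n = (i + n - d s) + (n - e s) := by omega
  rw [← Nat.add_mod_right (i + n - (d s + e s)) n, h1, Nat.add_sub_assoc (by omega : e s ≤ n),
    Nat.mod_add_mod]

/-- the part of `s` given by its binary digits `lo, ..., hi-1` -/
def dig (lo hi s : ℕ) : ℕ := s % 2 ^ hi - s % 2 ^ lo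

theorem dig_eq {lo hi : ℕ} (h : lo ≤ hi) (s : ℕ) :
    dig lo hi s = s / 2 ^ lo % 2 ^ (hi - lo) * 2 ^ lo := by
  unfold dig
  have h1 : 2 ^ hi = 2 ^ lo * 2 ^ (hi - lo) := by rw [← pow_add, Nat.add_sub_cancel' h]
  rw [h1, Nat.mod_mul, Nat.add_sub_cancel_left, Nat.mul_comm]

theorem dig_succ (t s : ℕ) : dig t (t + 1) s = if s / 2 ^ t % 2 = 1 then 2 ^ t else 0 := by
  rw [dig_eq (Nat.le_succ t), show t + 1 - t = 1 by omega, pow_one]
  rcases Nat.mod_two_eq_zero_or_one (s / 2 ^ t) with h | h <;> simp [h]

theorem mod_two_pow_le_mod {lo hi : ℕ} (h : lo ≤ hi) (s : ℕ) : s % 2 ^ lo ≤ s % 2 ^ hi := by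
  have h1 : 2 ^ hi = 2 ^ lo * 2 ^ (hi - lo) := by rw [← pow_add, Nat.add_sub_cancel' h]
  rw [h1, Nat.mod_mul]
  exact Nat.le_add_right _ _

/-- One level: if the digits from `hi` on have been done, a shift by the digits `lo, ..., hi-1`
does the digits from `lo` on. -/
theorem colShift_level {n lo hi : ℕ} (h : lo ≤ hi) (X : ℕ → ℕ → Bool) {i s : ℕ}
    (hs : s < n) :
    colShift n (dig lo hi) (colShift n (fun s => s - s % 2 ^ hi) X) i s
      = colShift n (fun s => s - s % 2 ^ lo) X i s := by
  have h1 := mod_two_pow_le_mod h s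
  have h2 : s % 2 ^ hi ≤ s := Nat.mod_le _ _
  rw [colShift_colShift _ _ _ (by simp only [dig]; omega)]
  simp only [colShift, dig]
  rw [show s % 2 ^ hi - s % 2 ^ lo + (s - s % 2 ^ hi) = s - s % 2 ^ lo by omega]

end Vale.Agent.P338
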