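import Vale.Agent.P338.CoreSpecE
import Vale.Agent.P338.H932.Shear

/-!
# The list functions of `CoreSpecE` on matrices
-/

namespace Vale.Agent.P338

namespace H932

/-- the list `g 0, ..., g (N-1)` -/
def tab (N : ℕ) (g : ℕ → Bool) : List Bool := (List.range N).map g

theorem tab_eq_cat (N : ℕ) (g : ℕ → Bool) : tab N g = cat N fun p => [g p] := by
  induction N with
  | zero => rfl
  | succ N ih => rw [cat_succ, ← ih]; simp [tab, List.range_succ]

@[simp] theorem tab_length (N : ℕ) (g : ℕ → Bool) : (tab N g).length = N := by simp [tab]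

theorem tab_congr {N : ℕ} {g h : ℕ → Bool} (H : ∀ p < N, g p = h p) : tab N g = tab N h := by
  unfold tab
  exact List.map_congr_left fun p hp => H p (List.mem_range.mp hp)

theorem tab_add (M N : ℕ) (g : ℕ → Bool) : tab (M + N) g = tab M g ++ tab N fun p => g (M + p) := by
  simp [tab, List.range_add]

theorem tab_drop (d N : ℕ) (g : ℕ → Bool) : (tab (d + N) g).drop d = tab N fun p => g (d + p) := by
  rw [tab_add, List.drop_left' (tab_length d g)]

theorem tab_take (k N : ℕ) (g : ℕ → Bool) : (tab (k + N) g).take k = tab k g := by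
  rw [tab_add, List.take_left' (tab_length k g)]

theorem tab_slice {d k N : ℕ} (h : d + k ≤ N) (g : ℕ → Bool) :
    ((tab N g).drop d).take k = tab k fun p => g (d + p) := by
  obtain ⟨r, rfl⟩ := Nat.exists_eq_add_of_le h
  rw [Nat.add_assoc, tab_drop, tab_take]

theorem tab_self {X : List Bool} {N : ℕ} (h : X.length = N) : tab N (fun p => X.getD p false) = X := by
  apply List.ext_getElem
  · simp [h]
  · intro i h1 h2
    simp [tab, List.getD_eq_getElem?_getD, h2]

theorem matL_eq_tab (n : ℕ) (Y : ℕ → ℕ → Bool) :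
    matL n Y = tab (n * n) fun p => Y (p / n) (p % n) := by
  rw [tab_eq_cat, cat_mul]
  refine cat_congr fun i _ => cat_congr fun s hs => ?_
  have h0 : 0 < n := by omega
  rw [Nat.mul_comm i n, Nat.mul_add_div h0, Nat.div_eq_of_lt hs, Nat.add_zero, Nat.mul_add_mod,
    Nat.mod_eq_of_lt hs]

/-- a row of a matrix, from position `a` on -/
theorem matL_slice {n i a k : ℕ} (hi : i < n) (hk : a + k ≤ n) (Y : ℕ → ℕ → Bool) :
    ((matL n Y).drop (i * n + a)).take k = tab k fun s => Y i (a + s) := by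
  have h0 : i * n + a + k ≤ n * n := by
    have : (i + 1) * n ≤ n * n := Nat.mul_le_mul_right n hi
    rw [Nat.add_mul, Nat.one_mul] at this
    omega
  rw [matL_eq_tab, tab_slice h0]
  refine tab_congr fun s hs => ?_
  have hn : 0 < n := by omega
  rw [show i * n + a + s = n * i + (a + s) by ring, Nat.mul_add_div hn,
    Nat.div_eq_of_lt (by omega), Nat.add_zero, Nat.mul_add_mod, Nat.mod_eq_of_lt (by omega)]

theorem matL_getD {n i s : ℕ} (hi : i < n) (hs : s < n) (Y : ℕ → ℕ → Bool) :
    (matL n Y).getD (i * n + s) false = Y i s := by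
  have h0 : i * n + s < n * n := by
    have : (i + 1) * n ≤ n * n := Nat.mul_le_mul_right n hi
    rw [Nat.add_mul, Nat.one_mul] at this
    omega
  have hn : 0 < n := by omega
  rw [matL_eq_tab]
  simp only [tab, List.getD_eq_getElem?_getD]
  rw [List.getElem?_map, List.getElem?_range h0]
  simp only [Option.map_some, Option.getD_some]
  rw [Nat.mul_comm i n, Nat.mul_add_div hn, Nat.div_eq_of_lt hs, Nat.add_zero, Nat.mul_add_mod,
    Nat.mod_eq_of_lt hs]

/-- the matrix of a list -/
def getM (n : ℕ) (X : List Bool) (i s : ℕ) : Bool := X.getD (i * n + s) false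

theorem matL_getM {n : ℕ} {X : List Bool} (h : X.length = n * n) : matL n (getM n X) = X := by
  rw [matL_eq_tab]
  refine (tab_congr fun p hp => ?_).trans (tab_self h)
  unfold getM
  rw [Nat.div_add_mod']

theorem getM_matL {n i s : ℕ} (hi : i < n) (hs : s < n) (Y : ℕ → ℕ → Bool) :
    getM n (matL n Y) i s = Y i s := matL_getD hi hs Y

/-- rotation of a matrix by `c` rows -/
theorem rotR_matL {n c : ℕ} (hc : c ≤ n) (Y : ℕ → ℕ → Bool) :
    E.rotR (c * n) (matL n Y) = matL n fun i s => Y ((i + n - c) % n) s := by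
  have hl : (matL n Y).length - c * n = (n - c) * n := by
    rw [matL_length, Nat.sub_mul]
  have h1 : matL n Y = (cat (n - c) fun i => cat n fun s => [Y i s]) ++
      cat c fun i => cat n fun s => [Y (n - c + i) s] := by
    unfold matL
    rw [← cat_add, Nat.sub_add_cancel hc]
  have hl1 : (cat (n - c) fun i => cat n fun s => [Y i s]).length = (n - c) * n :=
    cat_length fun _ _ => by rw [cat_length (p := 1) (fun _ _ => rfl), Nat.mul_one]
  unfold E.rotR
  rw [hl, h1, List.drop_left' hl1, List.take_left' hl1]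
  have h2 : (matL n fun i s => Y ((i + n - c) % n) s)
      = cat (c + (n - c)) fun i => cat n fun s => [Y ((i + n - c) % n) s] := by
    rw [show c + (n - c) = n by omega]
    rfl
  rw [h2, cat_add]
  congr 1
  · refine cat_congr fun i hi => ?_
    rw [show i + n - c = n - c + i by omega, Nat.mod_eq_of_lt (by omega)]
  · refine cat_congr fun i hi => ?_
    rw [show c + i + n - c = i + n by omega, Nat.add_mod_right, Nat.mod_eq_of_lt (by omega)]

theorem shear_matL {n lo hi : ℕ} (h : lo ≤ hi) (hn : 2 ^ hi ≤ n) (Y : ℕ → ℕ → Bool) :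
    E.shear n lo hi (matL n Y) = matL n (colShift n (dig lo hi) Y) := by
  unfold E.shear matL
  refine cat_congr fun i _ => ?_
  have hn0 : 0 < n := lt_of_lt_of_le (by positivity) hn
  rw [← tab_eq_cat]
  refine tab_congr fun s hs => ?_
  have hd : dig lo hi s < n := by
    unfold dig
    have := Nat.mod_lt s (y := 2 ^ hi) (by positivity)
    omega
  have e : s / 2 ^ lo % 2 ^ (hi - lo) * 2 ^ lo % n = dig lo hi s := by
    rw [← dig_eq h, Nat.mod_eq_of_lt hd]
  rw [e]
  exact matL_getD (Nat.mod_lt _ hn0) hs Y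

theorem bitop_matL {n t L : ℕ} (hn : n = 2 ^ L) (ht : t < L) (Y : ℕ → ℕ → Bool) :
    E.bitop n t (matL n Y) = matL n (colShift n (dig t (t + 1)) Y) := by
  obtain ⟨r, hr⟩ := Nat.exists_eq_add_of_lt ht
  have hn' : n = 2 ^ r * 2 ^ (t + 1) := by
    rw [hn, hr, ← pow_add]
    congr 1
    omega
  have hpos : 0 < 2 ^ (t + 1) := by positivity
  have hdiv : n / 2 ^ (t + 1) = 2 ^ r := by rw [hn', Nat.mul_div_cancel _ hpos]
  have htn : 2 ^ t ≤ n := by rw [hn]; exact Nat.pow_le_pow_right (by norm_num) ht.le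
  unfold E.bitop
  rw [rotR_matL htn, hdiv]
  refine cat_congr fun i hi => ?_
  have hrow : ∀ g : ℕ → Bool, tab n g = cat (2 ^ r) fun p => (tab (2 ^ t) fun s =>
      g (p * 2 ^ (t + 1) + s)) ++ tab (2 ^ t) fun s => g (p * 2 ^ (t + 1) + 2 ^ t + s) := by
    intro g
    rw [tab_eq_cat]
    conv_lhs => rw [hn']
    rw [cat_mul]
    refine cat_congr fun p _ => ?_
    rw [← tab_eq_cat, show 2 ^ (t + 1) = 2 ^ t + 2 ^ t by ring, tab_add]
    simp only [Nat.add_assoc]
  rw [← tab_eq_cat, hrow]
  refine cat_congr fun p hp => ?_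
  have hp1 : p * 2 ^ (t + 1) + 2 ^ (t + 1) ≤ n := by
    rw [← Nat.succ_mul, hn']
    exact Nat.mul_le_mul_right _ hp
  have hpt : 2 ^ (t + 1) = 2 ^ t + 2 ^ t := by ring
  unfold E.alt1
  rw [matL_slice hi (by omega), Nat.add_assoc, matL_slice hi (by omega)]
  have hmod : ∀ s, s < 2 ^ (t + 1) → (p * 2 ^ (t + 1) + s) / 2 ^ t % 2 = s / 2 ^ t := by
    intro s hs
    rw [show p * 2 ^ (t + 1) + s = s + 2 ^ t * (2 * p) by ring,
      Nat.add_mul_div_left _ _ (by positivity), Nat.add_mul_mod_self_left]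
    apply Nat.mod_eq_of_lt
    rw [Nat.div_lt_iff_lt_mul (by positivity)]
    omega
  congr 1
  · refine tab_congr fun s hs => ?_
    have : dig t (t + 1) (p * 2 ^ (t + 1) + s) = 0 := by
      rw [dig_succ, hmod s (by omega), Nat.div_eq_of_lt hs]
      simp
    simp only [colShift, this, Nat.sub_zero, Nat.add_mod_right, Nat.mod_eq_of_lt hi]
  · refine tab_congr fun s hs => ?_
    have : dig t (t + 1) (p * 2 ^ (t + 1) + 2 ^ t + s) = 2 ^ t := by
      rw [dig_succ, Nat.add_assoc, hmod (2 ^ t + s) (by omega), Nat.add_div_left _ (by positivity),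
        Nat.div_eq_of_lt hs]
      simp
    simp only [colShift, this]

theorem rot1_matL (n : ℕ) (Y : ℕ → ℕ → Bool) : E.rot1 n (matL n Y) = matL n (rotIn n Y) := by
  unfold E.rot1
  refine cat_congr fun r hr => ?_
  have h1 := matL_slice (n := n) (i := n - 1 - r) (a := 0) (k := n) (by omega) (by omega) Y
  rw [Nat.add_zero] at h1
  rw [h1]
  unfold E.rotR
  rw [tab_length, show n - (n - r) = r by omega]
  rw [← tab_eq_cat]
  obtain ⟨k, rfl⟩ := Nat.exists_eq_add_of_lt hr
  have e1 : r + k + 1 = r + (k + 1) := by omega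
  have e2 : r + (k + 1) = (k + 1) + r := by omega
  rw [e1, tab_drop, tab_take, e2]
  conv_rhs => rw [tab_add]
  congr 1
  · refine tab_congr fun s hs => ?_
    simp only [rotIn, Nat.zero_add]
    rw [Nat.mod_eq_of_lt (by omega), Nat.add_comm r s]
  · refine tab_congr fun s hs => ?_
    simp only [rotIn, Nat.zero_add]
    rw [show k + 1 + s + r = s + (k + 1 + r) by omega, Nat.add_mod_right,
      Nat.mod_eq_of_lt (by omega)]

theorem rot2_matL (n : ℕ) (Y : ℕ → ℕ → Bool) : E.rot2 n (matL n Y) = matL n (rotOut n Y) := by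
  unfold E.rot2
  refine cat_congr fun j hj => ?_
  have h1 := matL_slice (n := n) (i := j) (a := 0) (k := n) hj (by omega) Y
  rw [Nat.add_zero] at h1
  rw [h1]
  rw [← tab_eq_cat]
  obtain ⟨k, rfl⟩ := Nat.exists_eq_add_of_lt hj
  have e1 : j + k + 1 = (j + 1) + k := by omega
  have e2 : (j + 1) + k = k + (j + 1) := by omega
  rw [e1, tab_drop, tab_take]
  rw [e2]
  conv_rhs => rw [tab_add]
  congr 1
  · refine tab_congr fun s hs => ?_
    simp only [rotOut, Nat.zero_add]
    rw [show s + j + 1 = j + 1 + s by omega, Nat.mod_eq_of_lt (by omega)]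
  · refine tab_congr fun s hs => ?_
    simp only [rotOut, Nat.zero_add]
    rw [show k + s + j + 1 = s + (k + (j + 1)) by omega, Nat.add_mod_right,
      Nat.mod_eq_of_lt (by omega)]

end H932

open H932

/-- Bit operation on a list of `n * n` bits. -/
theorem bitop_eq_shear {n t L : ℕ} {X : List Bool} (hn : n = 2 ^ L) (ht : t < L)
    (hX : X.length = n * n) : E.bitop n t X = E.shear n t (t + 1) X := by
  have h2 : 2 ^ (t + 1) ≤ n := by rw [hn]; exact Nat.pow_le_pow_right (by norm_num) ht
  rw [← matL_getM hX, bitop_matL hn ht, shear_matL (Nat.le_succ t) h2]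

/-- Composition of shears (high digits first). -/
theorem shear_shear {n lo mid hi : ℕ} {X : List Bool} (h1 : lo ≤ mid) (h2 : mid ≤ hi)
    (hn : 2 ^ hi ≤ n) (hX : X.length = n * n) :
    E.shear n lo mid (E.shear n mid hi X) = E.shear n lo hi X := by
  have h3 : 2 ^ mid ≤ n := le_trans (Nat.pow_le_pow_right (by norm_num) h2) hn
  rw [← matL_getM hX, shear_matL h2 hn, shear_matL h1 h3, shear_matL (h1.trans h2) hn]
  refine matL_congr fun i s hi' hs => ?_
  have h4 := mod_two_pow_le_mod h1 s
  have h5 := mod_two_pow_le_mod h2 s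
  have h6 : s % 2 ^ hi ≤ s := Nat.mod_le _ _
  rw [colShift_colShift _ _ _ (by simp only [dig]; omega)]
  simp only [colShift, dig]
  rw [show s % 2 ^ mid - s % 2 ^ lo + (s % 2 ^ hi - s % 2 ^ mid) = s % 2 ^ hi - s % 2 ^ lo by
    omega]

theorem shear_refl {n a : ℕ} {X : List Bool} (hn : 2 ^ a ≤ n) (hX : X.length = n * n) :
    E.shear n a a X = X := by
  conv_rhs => rw [← matL_getM hX]
  conv_lhs => rw [← matL_getM hX]
  rw [shear_matL le_rfl hn]
  refine matL_congr fun i s hi hs => ?_
  simp only [colShift, dig, Nat.sub_self, Nat.sub_zero, Nat.add_mod_right, Nat.mod_eq_of_lt hi]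

theorem shear_len (n lo hi : ℕ) (X : List Bool) : (E.shear n lo hi X).length = n * n :=
  cat_length fun _ _ => by simp

/-- Rotation, column shear, rotation is transposition. -/
theorem rot2_shear_rot1 {n L : ℕ} (hn : n = 2 ^ L) (Y : ℕ → ℕ → Bool) :
    E.rot2 n (E.shear n 0 L (E.rot1 n (matL n Y))) = matL n fun j i => Y i j := by
  rw [rot1_matL, shear_matL (Nat.zero_le _) hn.ge, rot2_matL]
  refine matL_congr fun j i hj hi => ?_
  rw [← rotOut_colShift_rotIn Y hi hj]
  have hn0 : 0 < n := by omega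
  simp only [rotOut, colShift, dig, pow_zero, Nat.mod_one, Nat.sub_zero]
  rw [← hn, Nat.mod_mod]

end Vale.Agent.P338
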