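import Vale.Agent.P338.H930.ParamD
import Vale.Agent.P338.H933.AnalysisD
import Vale.Agent.P338.H933.FromPrograms

/-!
# Stage 2: from a family of stack programs to the sharp transfer inequality
-/

namespace Vale.Agent.P338

/-- The cost bound wanted for the program of stage 2 (everything in `ℕ`): `n0 = sqrt N`,
`p = pp n0`, `n = nn n0`, `W = WW n0`. -/
def CostBoundD (A : Machine) (C s : ℕ) (cost : ℕ → ℕ) : Prop :=
  ∃ K : ℕ, ∀ N : ℕ, 1 ≤ N → cost N ≤ K * (mulTime A (C * N + s)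
    + D.pp (Nat.sqrt N) * D.nn (Nat.sqrt N)
      * (mulTime A (D.WW (Nat.sqrt N)) + D.WW (Nat.sqrt N))
    + (D.be (Nat.sqrt N) + 1) * (D.nn (Nat.sqrt N) * D.nn (Nat.sqrt N))
    + D.pp (Nat.sqrt N) * D.pp (Nat.sqrt N) * (D.WW (Nat.sqrt N) * D.WW (Nat.sqrt N))
    + N + s + 1)

/-- What has to be programmed in stage 2. -/
def HasProgramD (A : Machine) (C s : ℕ) : Prop :=
  ∃ (R Γ : Type) (_ : Fintype R) (_ : DecidableEq R) (_ : Finite Γ) (P : Prog R Γ)
    (rin rout : R) (inj : Bool → Γ) (dec : Γ → Bool) (cost : ℕ → ℕ),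
    (∀ b, dec (inj b) = b) ∧ CostBoundD A C s cost ∧
    ∀ v : List Bool, v ≠ [] → ∃ s' : Store R Γ,
      Runs P (Function.update (fun _ => []) rin ((v.map inj).reverse)) s' (cost v.length) ∧
      s' rout = (transposeWord (Nat.sqrt v.length) v).map inj

namespace H932

theorem pp_mul_bb_le (n0 : ℕ) : D.pp n0 * D.bb n0 ≤ 2 * D.nn n0 := by
  have h1 : D.pp n0 ≤ 2 * (D.pp n0 - 1) := by
    have := (D.pp_prime n0).two_le
    omega
  calc D.pp n0 * D.bb n0 ≤ 2 * (D.pp n0 - 1) * D.bb n0 := Nat.mul_le_mul_right _ h1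
    _ = 2 * D.nn n0 := by unfold D.nn; ring

theorem nn_sq_le {N : ℕ} (hN : 1 ≤ N) :
    D.nn (Nat.sqrt N) * D.nn (Nat.sqrt N) ≤ 4356 * N := by
  have h0 : Nat.sqrt N ≠ 0 := by
    have := Nat.sqrt_pos.2 hN
    omega
  have h1 := D.nn_le (Nat.sqrt N) h0
  have h2 := Nat.sqrt_le N
  calc D.nn (Nat.sqrt N) * D.nn (Nat.sqrt N)
      ≤ (66 * Nat.sqrt N) * (66 * Nat.sqrt N) := Nat.mul_le_mul h1 h1
    _ = 4356 * (Nat.sqrt N * Nat.sqrt N) := by ring
    _ ≤ 4356 * N := Nat.mul_le_mul_left _ h2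

/-- `log N ≤ 16 b` -/
theorem log_le_bb {N : ℕ} (hN : 1 ≤ N) : Real.log N ≤ 16 * D.bb (Nat.sqrt N) := by
  set n0 := Nat.sqrt N with hn0
  have h1 := D.kk_lt n0
  have h2 := D.lt_two_pow_kk n0
  have h3 : N < (n0 + 1) * (n0 + 1) := Nat.lt_succ_sqrt N
  have h4 : n0 + 1 ≤ 2 ^ (D.kk n0 + 1) := h2
  have h5 : N < 2 ^ (2 * (D.kk n0 + 1)) := by
    calc N < (n0 + 1) * (n0 + 1) := h3
      _ ≤ 2 ^ (D.kk n0 + 1) * 2 ^ (D.kk n0 + 1) := Nat.mul_le_mul h4 h4
      _ = 2 ^ (2 * (D.kk n0 + 1)) := by rw [← pow_add]; congr 1; ring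
  have h6 : (N : ℝ) ≤ 2 ^ (2 * (D.kk n0 + 1)) := by exact_mod_cast h5.le
  have hNpos : (0 : ℝ) < N := by exact_mod_cast hN
  have h7 : Real.log N ≤ (2 * (D.kk n0 + 1) : ℕ) * Real.log 2 := by
    rw [← Real.log_pow]
    exact Real.log_le_log hNpos h6
  have h8 : Real.log 2 ≤ 1 := by
    have := Real.log_two_lt_d9
    linarith
  have h9 : ((2 * (D.kk n0 + 1) : ℕ) : ℝ) ≤ 16 * D.bb n0 := by
    have : 2 * (D.kk n0 + 1) ≤ 16 * D.bb n0 := by omega
    exact_mod_cast this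
  have h10 : (0 : ℝ) ≤ ((2 * (D.kk n0 + 1) : ℕ) : ℝ) := Nat.cast_nonneg _
  nlinarith

theorem one_lt_log {N : ℕ} (hN : 3 ≤ N) : 1 < Real.log N := log_pos_of_three_le hN

/-- `k ≤ log N` (natural logarithm) -/
theorem kk_le_log {N : ℕ} (hN : 3 ≤ N) : (D.kk (Nat.sqrt N) : ℝ) ≤ Real.log N := by
  set n0 := Nat.sqrt N with hn0
  have h0 : n0 ≠ 0 := by
    have := Nat.sqrt_pos.2 (show 0 < N by omega)
    omega
  have h1 := D.two_pow_kk_le h0
  have h2 : n0 * n0 ≤ N := Nat.sqrt_le N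
  have h3 : 2 ^ (2 * D.kk n0) ≤ N := by
    calc 2 ^ (2 * D.kk n0) = 2 ^ D.kk n0 * 2 ^ D.kk n0 := by rw [← pow_add]; congr 1; ring
      _ ≤ n0 * n0 := Nat.mul_le_mul h1 h1
      _ ≤ N := h2
  have h4 : (2 : ℝ) ^ (2 * D.kk n0) ≤ N := by exact_mod_cast h3
  have h5 : ((2 * D.kk n0 : ℕ) : ℝ) * Real.log 2 ≤ Real.log N := by
    rw [← Real.log_pow]
    exact Real.log_le_log (by positivity) h4
  have h6 : (1 / 2 : ℝ) ≤ Real.log 2 := by
    have := Real.log_two_gt_d9
    linarith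
  push_cast at h5
  have h7 : (0 : ℝ) ≤ (D.kk n0 : ℝ) := Nat.cast_nonneg _
  nlinarith

theorem WW_le_log {N : ℕ} (hN : 3 ≤ N) : (D.WW (Nat.sqrt N) : ℝ) ≤ 101 * Real.log N := by
  have h1 := kk_le_log hN
  have h2 := one_lt_log hN
  unfold D.WW
  push_cast
  linarith

theorem be_le_loglog : ∃ K : ℝ, 0 < K ∧ ∀ N : ℕ, 3 ≤ N →
    ((D.be (Nat.sqrt N) : ℝ) + 1) ≤ K * Real.log (Real.log N) := by
  have h3 : 1 < Real.log (3 : ℕ) := one_lt_log le_rfl
  have hll3 : 0 < Real.log (Real.log (3 : ℕ)) := Real.log_pos h3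
  refine ⟨2 + 1 / Real.log (Real.log (3 : ℕ)), by positivity, fun N hN => ?_⟩
  have hlog := one_lt_log hN
  have hmono : Real.log (Real.log (3 : ℕ)) ≤ Real.log (Real.log N) := by
    apply Real.log_le_log (by linarith)
    apply Real.log_le_log (by norm_num)
    exact_mod_cast hN
  have hll : 0 < Real.log (Real.log N) := Real.log_pos hlog
  have h1 : 1 ≤ 1 / Real.log (Real.log (3 : ℕ)) * Real.log (Real.log N) := by
    rw [one_div, inv_mul_eq_div, le_div_iff₀ hll3]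
    linarith
  have h2 : (D.be (Nat.sqrt N) : ℝ) ≤ 2 * Real.log (Real.log N) := by
    unfold D.be
    set k := D.kk (Nat.sqrt N) with hk
    rcases le_or_gt (Nat.log 2 k) 2 with h | h
    · rw [Nat.sub_eq_zero_of_le h]
      push_cast
      linarith
    · have hk0 : k ≠ 0 := by
        intro h0
        rw [h0] at h
        simp at h
      have h4 := Nat.pow_log_le_self 2 hk0
      have h5 : (2 : ℝ) ^ Nat.log 2 k ≤ k := by exact_mod_cast h4
      have h6 : (2 : ℝ) ^ Nat.log 2 k ≤ Real.log N := h5.trans (kk_le_log hN)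
      have h7 : (Nat.log 2 k : ℝ) * Real.log 2 ≤ Real.log (Real.log N) := by
        rw [← Real.log_pow]
        exact Real.log_le_log (by positivity) h6
      have h8 : (1 / 2 : ℝ) ≤ Real.log 2 := by
        have := Real.log_two_gt_d9
        linarith
      have h9 : ((Nat.log 2 k - 2 : ℕ) : ℝ) ≤ Nat.log 2 k := by
        exact_mod_cast Nat.sub_le _ _
      have h10 : (0 : ℝ) ≤ (Nat.log 2 k : ℝ) := Nat.cast_nonneg _
      nlinarith
  linarith

/-- the number of calls of `A` on numbers of `W` bits -/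
theorem calls_le {N : ℕ} (hN : 3 ≤ N) :
    ((D.pp (Nat.sqrt N) * D.nn (Nat.sqrt N) : ℕ) : ℝ) ≤ 139392 * (N / Real.log N) := by
  set n0 := Nat.sqrt N with hn0
  have h1 := pp_mul_bb_le n0
  have h2 : D.nn n0 * D.nn n0 ≤ 4356 * N := nn_sq_le (by omega)
  have h3 := log_le_bb (N := N) (by omega)
  rw [← hn0] at h3
  have hlog := one_lt_log hN
  have h4 : D.pp n0 * D.nn n0 * D.bb n0 ≤ 8712 * N := by
    calc D.pp n0 * D.nn n0 * D.bb n0 = (D.pp n0 * D.bb n0) * D.nn n0 := by ring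
      _ ≤ (2 * D.nn n0) * D.nn n0 := Nat.mul_le_mul_right _ h1
      _ = 2 * (D.nn n0 * D.nn n0) := by ring
      _ ≤ 8712 * N := by omega
  have h5 : ((D.pp n0 * D.nn n0 : ℕ) : ℝ) * D.bb n0 ≤ 8712 * N := by exact_mod_cast h4
  have h6 : (0 : ℝ) ≤ ((D.pp n0 * D.nn n0 : ℕ) : ℝ) := Nat.cast_nonneg _
  rw [← mul_div_assoc, le_div_iff₀ (by linarith)]
  nlinarith

/-- linear operations on the operands are linear in `N` -/
theorem calls_mul_WW_le {N : ℕ} (hN : 1 ≤ N) :
    D.pp (Nat.sqrt N) * D.nn (Nat.sqrt N) * D.WW (Nat.sqrt N) ≤ 1402632 * N := by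
  set n0 := Nat.sqrt N with hn0
  have h1 := pp_mul_bb_le n0
  have h2 : D.nn n0 * D.nn n0 ≤ 4356 * N := nn_sq_le hN
  calc D.pp n0 * D.nn n0 * D.WW n0 ≤ D.pp n0 * D.nn n0 * (161 * D.bb n0) :=
        Nat.mul_le_mul_left _ (D.WW_le n0)
    _ = 161 * ((D.pp n0 * D.bb n0) * D.nn n0) := by ring
    _ ≤ 161 * ((2 * D.nn n0) * D.nn n0) := by gcongr
    _ = 322 * (D.nn n0 * D.nn n0) := by ring
    _ ≤ 1402632 * N := by omega

theorem stage2_algebra {K s T x a b y K₂ w : ℝ} (hK : 0 ≤ K) (hs : 0 ≤ s) (hT : 0 ≤ T)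
    (ha : 0 ≤ a) (hb : 0 ≤ b) (hK₂ : 0 ≤ K₂) (hx : x ≤ 139392 * a) (hy : y ≤ K₂ * b)
    (hw : w ≤ 2 * (K * (500000000 * ((s + 1) * T) + x + 4356 * y)) + 6 * T) :
    w ≤ (2 * (K * (500000000 * (s + 1)) + K * 139392 + K * (4356 * K₂)) + 100 + 6)
      * (T + a + b) := by
  have f3 : K * (500000000 * ((s + 1) * T) + x + 4356 * y) ≤
      K * (500000000 * ((s + 1) * T) + 139392 * a + 4356 * (K₂ * b)) :=
    mul_le_mul_of_nonneg_left (by linarith) hK
  have g1 : 0 ≤ K * (500000000 * (s + 1)) := by positivity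
  have g2 : 0 ≤ K * 139392 := by positivity
  have g3 : 0 ≤ K * (4356 * K₂) := by positivity
  have g4 : K * (500000000 * ((s + 1) * T) + 139392 * a + 4356 * (K₂ * b)) =
      K * (500000000 * (s + 1)) * T + K * 139392 * a + K * (4356 * K₂) * b := by ring
  rw [g4] at f3
  generalize K * (500000000 * (s + 1)) = c1 at *
  generalize K * 139392 = c2 at *
  generalize K * (4356 * K₂) = c3 at *
  have e : (2 * (c1 + c2 + c3) + 100 + 6) * (T + a + b) =
      2 * (c1 * T + c2 * a + c3 * b) + 6 * T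
        + (2 * (c1 * a) + 2 * (c1 * b) + 2 * (c2 * T) + 2 * (c2 * b) + 2 * (c3 * T)
          + 2 * (c3 * a) + 100 * T + 106 * a + 106 * b) := by ring
  have e2 : 0 ≤ 2 * (c1 * a) + 2 * (c1 * b) + 2 * (c2 * T) + 2 * (c2 * b) + 2 * (c3 * T)
          + 2 * (c3 * a) + 100 * T + 106 * a + 106 * b := by positivity
  rw [e]
  linarith

end H932

open H932

/-- **Stage 2**: it suffices to write a stack program whose cost has the bound `CostBoundD`. -/
theorem transferD_of_programs {C : ℕ} (hC : 1 ≤ C)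
    (h : ∀ A : Machine, Multiplies A → ∀ s : ℕ, HasProgramD A C s) : TransferD C := by
  intro A hA s
  obtain ⟨R, Γ, _, _, _, P, rin, rout, inj, dec, cost, hdec, ⟨K, hK⟩, hP⟩ := h A hA s
  obtain ⟨h1, h2⟩ := progMachine_transposesAll P rin rout inj dec hdec cost hP
  obtain ⟨K₂, hK₂pos, hK₂⟩ := be_le_loglog
  refine ⟨_, h1, 2 * (K * (500000000 * (s + 1)) + K * 139392 + K * (4356 * K₂)) + 100 + 6,
    fun N => D.WW (Nat.sqrt N), fun N hN => ⟨?_, D.WW_odd _, ?_⟩, fun N hN => ?_⟩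
  · show 1 ≤ D.WW (Nat.sqrt N)
    unfold D.WW; omega
  · have h3 := WW_le_log hN
    have hlog := one_lt_log hN
    have h4 : (0 : ℝ) ≤ 2 * (K * (500000000 * (s + 1)) + K * 139392 + K * (4356 * K₂)) := by
      positivity
    exact h3.trans (mul_le_mul_of_nonneg_right (by linarith) (by linarith))
  · have hlog := one_lt_log hN
    have hll : 0 < Real.log (Real.log N) := Real.log_pos hlog
    set T : ℕ := mulTime A (C * N + s) with hT
    set TW : ℕ := mulTime A (D.WW (Nat.sqrt N)) with hTW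
    have hNT : N ≤ T := le_trans (by nlinarith) (hA.le_mulTime (C * N + s))
    have h3 := h2 N (by omega)
    have h4 := hK N (by omega)
    have h5 := calls_le hN
    have h6 := calls_mul_WW_le (N := N) (by omega)
    have h7 : D.nn (Nat.sqrt N) * D.nn (Nat.sqrt N) ≤ 4356 * N := nn_sq_le (by omega)
    have h8 := D.search_le (Nat.sqrt N)
    have h9 := hK₂ N hN
    set p := D.pp (Nat.sqrt N) with hp
    set n := D.nn (Nat.sqrt N) with hn
    set W := D.WW (Nat.sqrt N) with hW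
    set be := D.be (Nat.sqrt N) with hbe
    -- everything in `ℕ` first
    have e1 : p * n * (TW + W) ≤ p * n * TW + 1402632 * N := by
      rw [Nat.mul_add]; omega
    have e2 : (be + 1) * (n * n) ≤ 4356 * ((be + 1) * N) := by
      calc (be + 1) * (n * n) ≤ (be + 1) * (4356 * N) := Nat.mul_le_mul_left _ h7
        _ = 4356 * ((be + 1) * N) := by ring
    have e3 : p * p * (W * W) ≤ 451647504 * N := by omega
    have e4 : s + 1 ≤ (s + 1) * T := Nat.le_mul_of_pos_right _ (by omega)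
    have e5 : 460000000 * T ≤ 460000000 * ((s + 1) * T) :=
      Nat.mul_le_mul_left _ (Nat.le_mul_of_pos_left _ (by omega))
    have e6 : T + p * n * (TW + W) + (be + 1) * (n * n) + p * p * (W * W) + N + s + 1 ≤
        500000000 * ((s + 1) * T) + p * n * TW + 4356 * ((be + 1) * N) := by omega
    have e7 : cost N ≤ K * (500000000 * ((s + 1) * T) + p * n * TW + 4356 * ((be + 1) * N)) :=
      h4.trans (Nat.mul_le_mul_left _ e6)
    have e8 : wordTime (progMachine P rin rout inj dec) N ≤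
        2 * (K * (500000000 * ((s + 1) * T) + p * n * TW + 4356 * ((be + 1) * N))) + 6 * T := by
      omega
    have e9 : (wordTime (progMachine P rin rout inj dec) N : ℝ) ≤
        2 * (K * (500000000 * ((s + 1) * T) + ((p * n : ℕ) : ℝ) * TW
          + 4356 * ((be + 1) * N))) + 6 * T := by
      exact_mod_cast e8
    have hTW0 : (0 : ℝ) ≤ TW := Nat.cast_nonneg _
    have hN0 : (0 : ℝ) ≤ N := Nat.cast_nonneg _
    have f1 : ((p * n : ℕ) : ℝ) * TW ≤ 139392 * (N / Real.log N * TW) := by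
      have := mul_le_mul_of_nonneg_right h5 hTW0
      calc _ ≤ 139392 * (N / Real.log N) * TW := this
        _ = 139392 * (N / Real.log N * TW) := by ring
    have f2 : ((be : ℝ) + 1) * N ≤ K₂ * (N * Real.log (Real.log N)) := by
      have := mul_le_mul_of_nonneg_right h9 hN0
      calc _ ≤ K₂ * Real.log (Real.log N) * N := this
        _ = K₂ * (N * Real.log (Real.log N)) := by ring
    have ha0 : 0 ≤ N / Real.log N * TW := by
      have : 0 ≤ N / Real.log N := by positivity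
      positivity
    exact stage2_algebra (Nat.cast_nonneg _) (Nat.cast_nonneg _) (Nat.cast_nonneg _) ha0
      (by positivity) hK₂pos.le f1 f2 e9

end Vale.Agent.P338
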