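import Vale.Agent.P338.H932.Level
import Vale.Agent.P338.H933.FromPrograms

/-!
# The cost of the level loop
-/

namespace Vale.Agent.P338

namespace H932

theorem levelCost_zero (F : ℕ → ℕ) (G P : ℕ) : levelCost F G P 0 = 1 := by rw [levelCost]

theorem levelCost_odd (F : ℕ → ℕ) (G P mu : ℕ) :
    levelCost F G P (2 * mu + 1) = F (2 * mu + 1) + P + levelCost F G P mu := by
  rw [levelCost, if_pos (by omega), show 2 * mu / 2 = mu by omega]

theorem levelCost_even (F : ℕ → ℕ) (G P mu : ℕ) :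
    levelCost F G P (2 * mu + 1 + 1) = G + P + levelCost F G P (2 * mu + 1) := by
  rw [levelCost, if_neg (by omega)]

/-- Bound for the cost of the level loop: the first levels cost `O(T + m)` each, the remaining
ones together `O(m * L / 2 ^ u)`. -/
theorem levelCost_le {F : ℕ → ℕ} {G P K T m : ℕ} (hF1 : ∀ a, 1 ≤ a → F a ≤ K * (T + m))
    (hF2 : ∀ a, 1 ≤ a → F a ≤ K * (m * a)) (hG : G + P ≤ K * m) (u L : ℕ) :
    2 ^ u * levelCost F G P L ≤ K * (2 ^ u * (3 * u * (T + m)) + 4 * (m * L)) + 2 ^ u := by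
  induction u generalizing L with
  | zero =>
    rw [pow_zero, Nat.one_mul]
    simp only [Nat.mul_zero, Nat.zero_mul, Nat.zero_add]
    induction L using Nat.strong_induction_on with
    | _ L ih =>
      rcases Nat.eq_zero_or_pos L with rfl | hL
      · rw [levelCost_zero]; omega
      rcases Nat.mod_two_eq_zero_or_one L with hpar | hpar
      · obtain ⟨mu, rfl⟩ : ∃ mu, L = 2 * mu + 1 + 1 := ⟨(L - 2) / 2, by omega⟩
        rw [levelCost_even]
        have h1 := ih (2 * mu + 1) (by omega)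
        have e1 : K * (4 * (m * (2 * mu + 1 + 1))) = K * (4 * (m * (2 * mu + 1))) + 4 * (K * m) := by
          ring
        rw [e1]
        omega
      · obtain ⟨mu, rfl⟩ : ∃ mu, L = 2 * mu + 1 := ⟨L / 2, by omega⟩
        rw [levelCost_odd]
        have h1 := ih mu (by omega)
        have h2 := hF2 (2 * mu + 1) (by omega)
        have e1 : K * (4 * (m * (2 * mu + 1))) = K * (4 * (m * mu)) + K * (m * (2 * mu + 1)) +
            2 * (K * (m * mu)) + 3 * (K * m) := by
          ring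
        rw [e1]
        omega
  | succ u ih =>
    rcases Nat.eq_zero_or_pos L with rfl | hL
    · rw [levelCost_zero]; omega
    have key : ∀ mu, 2 ^ (u + 1) * (levelCost F G P (2 * mu + 1) + K * (T + m)) ≤
        K * (2 ^ (u + 1) * (3 * (u + 1) * (T + m)) + 4 * (m * (2 * mu + 1))) + 2 ^ (u + 1) := by
      intro mu
      rw [levelCost_odd]
      have h1 := ih mu
      have h2 := hF1 (2 * mu + 1) (by omega)
      have h3 : P ≤ K * (T + m) := by
        have : K * m ≤ K * (T + m) := Nat.mul_le_mul_left K (by omega)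
        omega
      have h4 : 2 ^ (u + 1) * (F (2 * mu + 1) + P + levelCost F G P mu + K * (T + m)) ≤
          2 ^ (u + 1) * (3 * (K * (T + m)) + levelCost F G P mu) :=
        Nat.mul_le_mul_left _ (by omega)
      refine h4.trans ?_
      have e2 : 2 ^ (u + 1) * (3 * (K * (T + m)) + levelCost F G P mu)
          = 2 ^ (u + 1) * (3 * (K * (T + m))) + 2 * (2 ^ u * levelCost F G P mu) := by ring
      rw [e2]
      have e3 : K * (2 ^ (u + 1) * (3 * (u + 1) * (T + m)) + 4 * (m * (2 * mu + 1))) + 2 ^ (u + 1)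
          = 2 ^ (u + 1) * (3 * (K * (T + m))) +
            2 * (K * (2 ^ u * (3 * u * (T + m)) + 4 * (m * mu)) + 2 ^ u) + 4 * (K * m) := by
        ring
      rw [e3]
      omega
    rcases Nat.mod_two_eq_zero_or_one L with hpar | hpar
    · obtain ⟨mu, rfl⟩ : ∃ mu, L = 2 * mu + 1 + 1 := ⟨(L - 2) / 2, by omega⟩
      rw [levelCost_even]
      have h1 : G + P + levelCost F G P (2 * mu + 1) ≤
          levelCost F G P (2 * mu + 1) + K * (T + m) := by
        have : K * m ≤ K * (T + m) := Nat.mul_le_mul_left K (by omega)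
        omega
      refine (Nat.mul_le_mul_left _ h1).trans ((key mu).trans ?_)
      have : 4 * (m * (2 * mu + 1)) ≤ 4 * (m * (2 * mu + 1 + 1)) :=
        Nat.mul_le_mul_left _ (Nat.mul_le_mul_left _ (by omega))
      exact Nat.add_le_add_right (Nat.mul_le_mul_left _ (Nat.add_le_add_left this _)) _
    · obtain ⟨mu, rfl⟩ : ∃ mu, L = 2 * mu + 1 := ⟨L / 2, by omega⟩
      exact (Nat.mul_le_mul_left _ (Nat.le_add_right _ _)).trans (key mu)

/-- The cost bound wanted for the whole program: `cost N` consists of the cost of the level loop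
and of `O(m)` for everything else, `m = C * N + s`. -/
theorem costBound_of_levels {A : Machine} (hA : Multiplies A) {C s K₁ : ℕ} (hC : 1 ≤ C)
    (cost : ℕ → ℕ)
    (h : ∀ N, 2 ≤ N → ∃ (L G P : ℕ) (F : ℕ → ℕ), L ≤ Nat.log 2 N + 1 ∧
      (∀ a, 1 ≤ a →
        F a ≤ K₁ * min (mulTime A (C * N + s) + (C * N + s)) ((C * N + s) * a)) ∧
      G + P ≤ K₁ * (C * N + s) ∧
      cost N ≤ levelCost F G P L + K₁ * (C * N + s)) : CostBound A C s cost := by
  refine ⟨7 * K₁ + 8 * K₁ * (C + s) + 1, fun N hN u => ?_⟩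
  obtain ⟨L, G, P, F, hL, hF, hG, hcost⟩ := h N hN
  set m := C * N + s with hm
  set T := mulTime A m with hT
  have hmT : m ≤ T := hA.le_mulTime m
  have hm1 : 1 ≤ m := by
    have : 1 * 2 ≤ C * N := Nat.mul_le_mul hC hN
    omega
  have h1 := levelCost_le (F := F) (G := G) (P := P) (K := K₁) (T := T) (m := m)
    (fun a ha => (hF a ha).trans (Nat.mul_le_mul_left _ (min_le_left _ _)))
    (fun a ha => (hF a ha).trans (Nat.mul_le_mul_left _ (min_le_right _ _))) hG u L
  have hlog : 1 ≤ Nat.log 2 N := Nat.log_pos (by norm_num) hN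
  have hmL : m * L ≤ 2 * (C + s) * (N * Nat.log 2 N) := by
    have e1 : m ≤ (C + s) * N := by
      rw [hm, Nat.add_mul]
      have : s * 1 ≤ s * N := Nat.mul_le_mul_left s (by omega)
      omega
    have e2 : L ≤ 2 * Nat.log 2 N := by omega
    calc m * L ≤ ((C + s) * N) * (2 * Nat.log 2 N) := Nat.mul_le_mul e1 e2
      _ = 2 * (C + s) * (N * Nat.log 2 N) := by ring
  have h2 : 2 ^ u * cost N ≤ 2 ^ u * levelCost F G P L + 2 ^ u * (K₁ * m) := by
    rw [← Nat.mul_add]
    exact Nat.mul_le_mul_left _ hcost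
  refine h2.trans ?_
  have h3 : K₁ * (2 ^ u * (3 * u * (T + m)) + 4 * (m * L)) ≤
      6 * K₁ * (2 ^ u * ((u + 1) * T)) + 8 * K₁ * (C + s) * (N * Nat.log 2 N) := by
    have e1 : 3 * u * (T + m) ≤ 6 * ((u + 1) * T) := by nlinarith
    calc K₁ * (2 ^ u * (3 * u * (T + m)) + 4 * (m * L))
        ≤ K₁ * (2 ^ u * (6 * ((u + 1) * T)) + 4 * (2 * (C + s) * (N * Nat.log 2 N))) := by
          gcongr
      _ = 6 * K₁ * (2 ^ u * ((u + 1) * T)) + 8 * K₁ * (C + s) * (N * Nat.log 2 N) := by ring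
  have h4 : 2 ^ u * (K₁ * m) ≤ K₁ * (2 ^ u * ((u + 1) * T)) := by
    have e1 : m ≤ (u + 1) * T := by nlinarith
    calc 2 ^ u * (K₁ * m) ≤ 2 ^ u * (K₁ * ((u + 1) * T)) := by gcongr
      _ = K₁ * (2 ^ u * ((u + 1) * T)) := by ring
  have h5 : 2 ^ u ≤ 2 ^ u * ((u + 1) * T) := by
    have : 1 ≤ (u + 1) * T := by nlinarith
    exact Nat.le_mul_of_pos_right _ this
  calc 2 ^ u * levelCost F G P L + 2 ^ u * (K₁ * m)
      ≤ (6 * K₁ * (2 ^ u * ((u + 1) * T)) + 8 * K₁ * (C + s) * (N * Nat.log 2 N)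
        + 2 ^ u * ((u + 1) * T)) + K₁ * (2 ^ u * ((u + 1) * T)) := by omega
    _ = (7 * K₁ + 1) * (2 ^ u * ((u + 1) * T)) + 8 * K₁ * (C + s) * (N * Nat.log 2 N) := by ring
    _ ≤ (7 * K₁ + 8 * K₁ * (C + s) + 1) * (2 ^ u * ((u + 1) * T) + N * Nat.log 2 N) := by
      have e1 : 0 ≤ 8 * K₁ * (C + s) * (2 ^ u * ((u + 1) * T)) := Nat.zero_le _
      have e2 : 0 ≤ (7 * K₁ + 1) * (N * Nat.log 2 N) := Nat.zero_le _
      have e3 : (7 * K₁ + 8 * K₁ * (C + s) + 1) * (2 ^ u * ((u + 1) * T) + N * Nat.log 2 N)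
        = (7 * K₁ + 1) * (2 ^ u * ((u + 1) * T)) + 8 * K₁ * (C + s) * (N * Nat.log 2 N)
          + (8 * K₁ * (C + s) * (2 ^ u * ((u + 1) * T)) + (7 * K₁ + 1) * (N * Nat.log 2 N)) := by
        ring
      rw [e3]
      exact Nat.le_add_right _ _

/-- The cost of `LEVELS` (see `LevelsReg.levels_runs`) in terms of the cost `F` of the fast
operation and the cost `G` of the bit operation. -/
theorem levels_costBound {A : Machine} (hA : Multiplies A) {C s K : ℕ} (hC : 1 ≤ C)
    (cost : ℕ → ℕ)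
    (h : ∀ N, 2 ≤ N → ∃ (L G : ℕ) (F : ℕ → ℕ), L ≤ Nat.log 2 N + 1 ∧
      2 ^ L * 2 ^ L ≤ C * N + s ∧
      (∀ a, 1 ≤ a →
        F a ≤ K * min (mulTime A (C * N + s) + (C * N + s)) ((C * N + s) * a)) ∧
      G ≤ K * (C * N + s) ∧
      cost N ≤ (levelCost (fun a => F a + 19 * 2 ^ L) (G + 31 * (2 ^ L * 2 ^ L) + 4)
        (20 * 2 ^ L) L + 4 * L + 2) + K * (C * N + s)) : CostBound A C s cost := by
  refine costBound_of_levels hA (K₁ := K + 60) hC cost fun N hN => ?_
  obtain ⟨L, G, F, hL, hLm, hF, hG, hcost⟩ := h N hN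
  set m := C * N + s with hm
  have h1 : 1 ≤ 2 ^ L := Nat.one_le_two_pow
  have h2 : 2 ^ L ≤ m := le_trans (Nat.le_mul_of_pos_left _ h1) hLm
  have h3 : L < 2 ^ L := Nat.lt_two_pow_self
  have h4 : (K + 60) * m = K * m + 60 * m := by ring
  refine ⟨L, G + 31 * (2 ^ L * 2 ^ L) + 4, 20 * 2 ^ L, fun a => F a + 19 * 2 ^ L, hL,
    fun a ha => ?_, ?_, hcost.trans ?_⟩
  · show F a + 19 * 2 ^ L ≤ (K + 60) * min (mulTime A m + m) (m * a)
    have h5 := hF a ha
    have h6 : m ≤ min (mulTime A m + m) (m * a) :=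
      le_min (Nat.le_add_left _ _) (Nat.le_mul_of_pos_right _ ha)
    have h7 : (K + 60) * min (mulTime A m + m) (m * a)
      = K * min (mulTime A m + m) (m * a) + 60 * min (mulTime A m + m) (m * a) := by ring
    omega
  · omega
  · omega

end H932

end Vale.Agent.P338
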