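import Vale.Agent.P338.H932.Level
import Vale.Agent.P338.H932.Bridge
import Vale.Agent.P338.H931.Parts

/-!
# The level loop over the global registers
-/

set_option linter.unusedSectionVars false
set_option linter.unusedSimpArgs false

namespace Vale.Agent.P338

open Function (update update_self update_of_ne)

namespace H932

/-- Registers of the level loop inside the global registers. -/
def levEmb (Y Z : Type) : Emb LR (Reg ⊕ Y) Bool (Bool ⊕ Z) where
  reg
    | .lam => Sum.inl .u0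
    | .E => Sum.inl .rLam
    | .mu => Sum.inl .u1
    | .t => Sum.inl .u2
    | .f => Sum.inl .u3
  regInv
    | Sum.inl .u0 => some .lam
    | Sum.inl .rLam => some .E
    | Sum.inl .u1 => some .mu
    | Sum.inl .u2 => some .t
    | Sum.inl .u3 => some .f
    | _ => none
  reg_inv := by intro r; cases r <;> rfl
  reg_eq := by
    intro r r' h
    rcases r with r | y
    · cases r <;> simp at h <;> subst h <;> rfl
    · simp at h
  sym := Sum.inl
  symInv := Sum.getLeft?
  sym_inv := fun _ => rfl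

/-- Registers of `pow2` for `rB := 2 ^ u1`. -/
def powMuEmb : Emb PR Reg Bool Bool where
  reg
    | .r => .u1
    | .q => .u4
    | .B => .rB
    | .c1 => .u5
    | .c2 => .u6
  regInv
    | .u1 => some .r
    | .u4 => some .q
    | .rB => some .B
    | .u5 => some .c1
    | .u6 => some .c2
    | _ => none
  reg_inv := by intro r; cases r <;> rfl
  reg_eq := by
    intro r r' h
    cases r <;> simp at h <;> subst h <;> rfl
  sym := id
  symInv := some
  sym_inv := fun _ => rfl

/-- Registers of `pow2` for `r2t := 2 ^ u2`. -/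
def powTEmb : Emb PR Reg Bool Bool where
  reg
    | .r => .u2
    | .q => .u4
    | .B => .r2t
    | .c1 => .u5
    | .c2 => .u6
  regInv
    | .u2 => some .r
    | .u4 => some .q
    | .r2t => some .B
    | .u5 => some .c1
    | .u6 => some .c2
    | _ => none
  reg_inv := by intro r; cases r <;> rfl
  reg_eq := by
    intro r r' h
    cases r <;> simp at h <;> subst h <;> rfl
  sym := id
  symInv := some
  sym_inv := fun _ => rfl

/-- The store `s` with data `X` and the registers of the level loop set. -/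
def lst (s : Store Reg Bool) (X : List Bool) (lam E mu t f : ℕ) : Store Reg Bool := fun r =>
  match r with
  | .X => X
  | .u0 => zer lam
  | .rLam => zer E
  | .u1 => zer mu
  | .u2 => zer t
  | .u3 => zer f
  | r => s r

theorem put_levEmb {Y Z : Type} (s : Store Reg Bool) (v : Y → List (Bool ⊕ Z)) (X : List Bool)
    (lam E mu t f : ℕ) :
    (levEmb Y Z).put (liftStore (update s .X X) v) (st lam E mu t f)
      = liftStore (lst s X lam E mu t f) v := by
  funext r
  rcases r with r | y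
  · cases r <;> rfl
  · rfl

/-- Assumptions on the store outside the registers of the loop. -/
structure LevOk (s : Store Reg Bool) (L m : ℕ) : Prop where
  clean : Clean s
  rn : s .rn = zer (2 ^ L)
  rL : s .rL = zer L
  rM : s .rM = zer m
  rB : s .rB = []
  u4 : s .u4 = []
  u5 : s .u5 = []
  u6 : s .u6 = []

section progs

variable {Y Z : Type}

/-- The fast operation as called by the loop: compute `rB = 2 ^ mu`, run, clear `rB`. -/
def fastCall (fastOp : Prog (Reg ⊕ Y) (Bool ⊕ Z)) : Prog (Reg ⊕ Y) (Bool ⊕ Z) :=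
  .seq ((pow2.emb powMuEmb).lift Y Z) (.seq fastOp ((Prog.clear Reg.rB).lift Y Z))

/-- The bit operation as called by the loop: compute `r2t = 2 ^ t` and `r2tn = 2 ^ t * n`, run,
clear. -/
def bitCall (bitop : Prog Reg Bool) : Prog Reg Bool :=
  .seq (pow2.emb powTEmb) (.seq (Prog.mulTo .r2t .rn .r2tn .t0 .t1)
    (.seq bitop (.seq (Prog.clear .r2t) (Prog.clear .r2tn))))

variable {s : Store Reg Bool} {L m : ℕ}

theorem powMu_runs (h : LevOk s L m) (X : List Bool) (mu : ℕ) :
    Runs (pow2.emb powMuEmb) (lst s X 0 (2 * mu + 1) mu 0 1)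
      (update (lst s X 0 (2 * mu + 1) mu 0 1) .rB (zer (2 ^ mu))) (16 * 2 ^ mu) := by
  refine (pow2_runs mu).emb powMuEmb ?_ ?_ ?_
  · intro r
    cases r <;> simp [powMuEmb, lst, pst, h.u4, h.u5, h.u6, h.rB, zer]
  · intro r
    cases r <;> simp [powMuEmb, lst, pst, h.u4, h.u5, h.u6, h.rB, zer]
  · intro r hr
    cases r <;> first | rfl | (simp [powMuEmb] at hr)

theorem powT_runs (h : LevOk s L m) (X : List Bool) (t : ℕ) :
    Runs (pow2.emb powTEmb) (lst s X 0 0 0 t 0)
      (update (lst s X 0 0 0 t 0) .r2t (zer (2 ^ t))) (16 * 2 ^ t) := by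
  have h2t : s .r2t = [] := h.clean _ rfl
  refine (pow2_runs t).emb powTEmb ?_ ?_ ?_
  · intro r
    cases r <;> simp [powTEmb, lst, pst, h.u4, h.u5, h.u6, h2t, zer]
  · intro r
    cases r <;> simp [powTEmb, lst, pst, h.u4, h.u5, h.u6, h2t, zer]
  · intro r hr
    cases r <;> first | rfl | (simp [powTEmb] at hr)

/-- Specification of the fast operation used here (`L`, `m` fixed). -/
def FastSpec (fastOp : Prog (Reg ⊕ Y) (Bool ⊕ Z)) (L m : ℕ) (F : ℕ → ℕ) : Prop :=
  ∀ (s : Store Reg Bool) (mu : ℕ), Clean s → s .rn = zer (2 ^ L) → s .rB = zer (2 ^ mu) →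
    s .rLam = zer (2 * mu + 1) → 2 * mu + 1 ≤ L → s .rM = zer m →
    (s .X).length = 2 ^ L * 2 ^ L →
    Runs fastOp (liftStore s fun _ => [])
      (liftStore (update s .X (E.shear (2 ^ L) mu (2 * mu + 1) (s .X))) fun _ => [])
      (F (2 * mu + 1))

/-- Specification of the bit operation used here (`L`, `m` fixed). -/
def BitSpec (bitop : Prog Reg Bool) (L : ℕ) (G : ℕ) : Prop :=
  ∀ (s : Store Reg Bool) (t : ℕ), t < L → TmpClean s →
    s .rn = zer (2 ^ L) → s .r2t = zer (2 ^ t) → s .r2tn = zer (2 ^ t * 2 ^ L) →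
    (s .X).length = 2 ^ L * 2 ^ L →
    Runs bitop s (update s .X (E.bitop (2 ^ L) t (s .X))) G

theorem fastCall_runs {fastOp : Prog (Reg ⊕ Y) (Bool ⊕ Z)} {F : ℕ → ℕ} (h : LevOk s L m)
    (hf : FastSpec fastOp L m F) (X : List Bool) (hX : X.length = 2 ^ L * 2 ^ L) (mu : ℕ)
    (hmu : 2 * mu + 1 ≤ L) :
    Runs (fastCall fastOp) (liftStore (lst s X 0 (2 * mu + 1) mu 0 1) fun _ => [])
      (liftStore (lst s (E.shear (2 ^ L) mu (2 * mu + 1) X) 0 (2 * mu + 1) mu 0 1) fun _ => [])
      (F (2 * mu + 1) + 18 * 2 ^ mu + 1) := by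
  have h1 := (powMu_runs h X mu).lift (Y := Y) (Z := Z) (fun _ => [])
  have hc : Clean (update (lst s X 0 (2 * mu + 1) mu 0 1) .rB (zer (2 ^ mu))) := by
    intro r hr
    have h3 := h.clean r hr
    cases r <;> first | exact h3 | (simp [Reg.work] at hr)
  have h2 := hf (update (lst s X 0 (2 * mu + 1) mu 0 1) .rB (zer (2 ^ mu))) mu hc
    (by simpa [lst] using h.rn) (by simp) (by simp [lst]) hmu (by simpa [lst] using h.rM)
    (by simpa [lst] using hX)
  have e1 : update (update (lst s X 0 (2 * mu + 1) mu 0 1) .rB (zer (2 ^ mu))) .X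
      (E.shear (2 ^ L) mu (2 * mu + 1)
        (update (lst s X 0 (2 * mu + 1) mu 0 1) .rB (zer (2 ^ mu)) .X)) =
      update (lst s (E.shear (2 ^ L) mu (2 * mu + 1) X) 0 (2 * mu + 1) mu 0 1) .rB
        (zer (2 ^ mu)) := by
    funext r; cases r <;> rfl
  rw [e1] at h2
  have h3 := (Runs.clear Reg.rB (update (lst s (E.shear (2 ^ L) mu (2 * mu + 1) X) 0
    (2 * mu + 1) mu 0 1) .rB (zer (2 ^ mu)))).lift (Y := Y) (Z := Z) (fun _ => [])
  have e2 : update (update (lst s (E.shear (2 ^ L) mu (2 * mu + 1) X) 0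
      (2 * mu + 1) mu 0 1) .rB (zer (2 ^ mu))) .rB [] =
      lst s (E.shear (2 ^ L) mu (2 * mu + 1) X) 0 (2 * mu + 1) mu 0 1 := by
    funext r
    cases r <;> first | rfl | (simp [lst, h.rB])
  rw [e2, update_self, zer_length] at h3
  exact h1.seq' (h2.seq' h3 le_rfl) (by omega)

theorem bitCall_runs {bitop : Prog Reg Bool} {G : ℕ} (h : LevOk s L m)
    (hb : BitSpec bitop L G) (X : List Bool) (hX : X.length = 2 ^ L * 2 ^ L) (t : ℕ)
    (ht : t < L) :
    Runs (bitCall bitop) (lst s X 0 0 0 t 0)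
      (lst s (E.bitop (2 ^ L) t X) 0 0 0 t 0)
      (G + 7 * (2 ^ t * 2 ^ L) + 24 * 2 ^ t + 4) := by
  have h1 := powT_runs h X t
  have hclean : ∀ r, Reg.work r = true → s r = [] := h.clean
  have h2 := Runs.mulTo (a := Reg.r2t) (b := .rn) (c := .r2tn) (t₁ := .t0) (t₂ := .t1)
    (by decide) (by decide) (by decide) (by decide) (by decide) (by decide) (by decide)
    (by decide) (by decide) (by decide)
    (s := update (lst s X 0 0 0 t 0) .r2t (zer (2 ^ t))) (x := 2 ^ t) (y := 2 ^ L) (z := 0)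
    (by simp) (by simpa [lst] using h.rn) (by simpa [lst, zer_zero] using hclean .r2tn rfl)
    (by simpa [lst] using hclean .t0 rfl) (by simpa [lst] using hclean .t1 rfl)
  rw [Nat.add_zero] at h2
  have htc : TmpClean (update (update (lst s X 0 0 0 t 0) .r2t (zer (2 ^ t))) .r2tn
      (zer (2 ^ t * 2 ^ L))) := by
    intro r hr
    have h3 : Reg.work r = true := by cases r <;> first | rfl | (simp [Reg.tmp] at hr)
    have h4 := h.clean r h3
    cases r <;> first | exact h4 | (simp [Reg.tmp] at hr)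
  have h3 := hb (update (update (lst s X 0 0 0 t 0) .r2t (zer (2 ^ t))) .r2tn
    (zer (2 ^ t * 2 ^ L))) t ht htc (by simpa [lst] using h.rn) (by simp) (by simp)
    (by simpa [lst] using hX)
  have e1 : update (update (update (lst s X 0 0 0 t 0) .r2t (zer (2 ^ t))) .r2tn
      (zer (2 ^ t * 2 ^ L))) .X (E.bitop (2 ^ L) t ((update (update (lst s X 0 0 0 t 0) .r2t
      (zer (2 ^ t))) .r2tn (zer (2 ^ t * 2 ^ L))) .X)) =
      update (update (lst s (E.bitop (2 ^ L) t X) 0 0 0 t 0) .r2t (zer (2 ^ t))) .r2tn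
      (zer (2 ^ t * 2 ^ L)) := by
    funext r; cases r <;> rfl
  rw [e1] at h3
  have h4 := Runs.clear Reg.r2t (update (update (lst s (E.bitop (2 ^ L) t X) 0 0 0 t 0) .r2t
    (zer (2 ^ t))) .r2tn (zer (2 ^ t * 2 ^ L)))
  have h5 := Runs.clear Reg.r2tn (update (update (update (lst s (E.bitop (2 ^ L) t X) 0 0 0 t 0)
    .r2t (zer (2 ^ t))) .r2tn (zer (2 ^ t * 2 ^ L))) .r2t [])
  have e2 : update (update (update (update (lst s (E.bitop (2 ^ L) t X) 0 0 0 t 0)
    .r2t (zer (2 ^ t))) .r2tn (zer (2 ^ t * 2 ^ L))) .r2t []) .r2tn [] =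
      lst s (E.bitop (2 ^ L) t X) 0 0 0 t 0 := by
    have g1 := hclean .r2t rfl
    have g2 := hclean .r2tn rfl
    funext r
    cases r <;> first | rfl | (simp [lst, g1, g2])
  rw [e2] at h5
  have l1 : (update (update (lst s (E.bitop (2 ^ L) t X) 0 0 0 t 0) .r2t
    (zer (2 ^ t))) .r2tn (zer (2 ^ t * 2 ^ L)) .r2t).length = 2 ^ t := by
    simp [zer]
  have l2 : (update (update (update (lst s (E.bitop (2 ^ L) t X) 0 0 0 t 0)
    .r2t (zer (2 ^ t))) .r2tn (zer (2 ^ t * 2 ^ L))) .r2t [] .r2tn).length = 2 ^ t * 2 ^ L := by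
    simp [zer]
  rw [l1] at h4
  rw [l2] at h5
  have e3 : 2 ^ t * (5 * 2 ^ L + 6) + 2 = 5 * (2 ^ t * 2 ^ L) + 6 * 2 ^ t + 2 := by ring
  rw [e3] at h2
  exact h1.seq' (h2.seq' (h3.seq' (h4.seq' h5 le_rfl) le_rfl) le_rfl) (by omega)

variable [DecidableEq Y]

/-- The level loop over the global registers: `u0 := rL`, then the loop. -/
def levels (fastOp : Prog (Reg ⊕ Y) (Bool ⊕ Z)) (bitop : Prog Reg Bool) :
    Prog (Reg ⊕ Y) (Bool ⊕ Z) :=
  .seq ((Prog.copy Reg.rL .u4 .u0).lift Y Z)
    (levelLoop (levEmb Y Z) (fastCall fastOp) ((bitCall bitop).lift Y Z))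

/-- The level loop does the whole column shear. -/
theorem levels_runs {fastOp : Prog (Reg ⊕ Y) (Bool ⊕ Z)} {bitop : Prog Reg Bool}
    {F : ℕ → ℕ} {G : ℕ} (hf : FastSpec fastOp L m F) (hb : BitSpec bitop L G)
    (s : Store Reg Bool) (h : LevOk s L m) (hLam : s .rLam = [])
    (hu : s .u0 = [] ∧ s .u1 = [] ∧ s .u2 = [] ∧ s .u3 = [])
    (hX : (s .X).length = 2 ^ L * 2 ^ L) :
    Runs (levels fastOp bitop) (liftStore s fun _ => [])
      (liftStore (update s .X (E.shear (2 ^ L) 0 L (s .X))) fun _ => [])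
      (levelCost (fun a => F a + 19 * 2 ^ L) (G + 31 * (2 ^ L * 2 ^ L) + 4) (20 * 2 ^ L) L
        + 4 * L + 2) := by
  obtain ⟨hu0, hu1, hu2, hu3⟩ := hu
  have h1 := (Runs.copy (r := Reg.rL) (q := .u4) (dst := .u0) (by decide) (by decide) (by decide)
    (s := s) h.u4).lift (Y := Y) (Z := Z) (fun _ => [])
  rw [h.rL, zer_length] at h1
  have e1 : update s .u0 (zer L ++ s .u0) = lst s (s .X) L 0 0 0 0 := by
    funext r
    cases r <;> first | rfl | (simp [lst, hLam, hu0, hu1, hu2, hu3, zer_zero])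
  rw [e1] at h1
  have h2L : 0 < 2 ^ L := by positivity
  have h2 := levelLoop_runs (levEmb Y Z) (fast := fastCall fastOp)
    (bit := (bitCall bitop).lift Y Z) (n := 2 ^ L) (L := L) le_rfl
    (fun X => liftStore (update s .X X) fun _ => []) (fun a => F a + 19 * 2 ^ L)
    (G + 31 * (2 ^ L * 2 ^ L) + 4)
    (by
      intro mu X hmu
      have hpow : 2 * mu + 1 ≤ L := hmu
      have e2 : matL (2 ^ L) (colShift (2 ^ L) (dig mu (2 * mu + 1)) X)
          = E.shear (2 ^ L) mu (2 * mu + 1) (matL (2 ^ L) X) :=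
        (shear_matL (by omega) (Nat.pow_le_pow_right (by norm_num) hmu) X).symm
      rw [put_levEmb, put_levEmb, e2]
      have h3 : 2 ^ mu ≤ 2 ^ L := Nat.pow_le_pow_right (by norm_num) (by omega)
      exact (fastCall_runs h hf _ (matL_length _ _) mu hmu).weaken (by omega))
    (by
      intro t X ht
      rw [put_levEmb, put_levEmb, ← bitop_matL rfl ht]
      refine ((bitCall_runs h hb _ (matL_length _ _) t ht).lift (fun _ => [])).weaken ?_
      have h3 : 2 ^ t ≤ 2 ^ L := Nat.pow_le_pow_right (by norm_num) ht.le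
      have h4 : 2 ^ t * 2 ^ L ≤ 2 ^ L * 2 ^ L := Nat.mul_le_mul_right _ h3
      have h5 : 2 ^ t ≤ 2 ^ L * 2 ^ L := h3.trans (Nat.le_mul_of_pos_left _ h2L)
      omega)
    (getM (2 ^ L) (s .X)) L le_rfl
  rw [put_levEmb, put_levEmb] at h2
  have e3 : matL (2 ^ L) (colShift (2 ^ L) (fun s => s - s % 2 ^ L) (getM (2 ^ L) (s .X)))
      = s .X := by
    conv_rhs => rw [← matL_getM hX]
    refine matL_congr fun i k hi hk => ?_
    simp only [colShift, Nat.mod_eq_of_lt hk, Nat.sub_self, Nat.sub_zero, Nat.add_mod_right,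
      Nat.mod_eq_of_lt hi]
  have e4 : matL (2 ^ L) (colShift (2 ^ L) (fun s => s) (getM (2 ^ L) (s .X)))
      = E.shear (2 ^ L) 0 L (s .X) := by
    conv_rhs => rw [← matL_getM hX, shear_matL (Nat.zero_le _) le_rfl]
    refine matL_congr fun i k _ hk => ?_
    simp only [colShift, dig, pow_zero, Nat.mod_one, Nat.sub_zero, Nat.mod_eq_of_lt hk]
  rw [e3, e4] at h2
  refine (h1.seq h2).conv ?_ (by omega)
  congr 1
  funext r
  cases r <;> first | rfl | (simp [lst, hLam, hu0, hu1, hu2, hu3, zer_zero])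

end progs

end H932

end Vale.Agent.P338
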