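import Vale.Agent.P338.H933.Analysis

/-!
# P338: from lower bounds at the lengths `C n²` to lower bounds for all lengths

No monotonicity of the running time is needed if one looks at inputs of length at most `n`.
-/

namespace Vale.Agent.P338

/-- A lower bound for `T (C k²)` gives, for all large `n`, a lower bound for `T m` for some `m`
with `n - 4 C (√(n / C) + 1) ≤ m ≤ n`. -/
theorem near_of_squares {C : ℕ} (hC : 1 ≤ C) {T : ℕ → ℝ} {d : ℝ} (hd : 0 < d) {N₁ : ℕ}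
    (hlow : ∀ n : ℕ, N₁ ≤ n → d * ((n : ℝ) ^ 2 * Real.log n) ≤ T (C * n ^ 2)) :
    ∃ c : ℝ, 0 < c ∧ ∃ N₀ : ℕ, 2 ≤ N₀ ∧ ∀ n : ℕ, N₀ ≤ n →
      ∃ m : ℕ, m ≤ n ∧ n ≤ m + 4 * C * Nat.sqrt n ∧ c * (n * Real.log n) ≤ T m := by
  set N₂ : ℕ := max N₁ (4 * C) with hN₂
  refine ⟨d / (12 * C), by positivity, C * N₂ ^ 2 + 2, by omega, fun m hm => ?_⟩
  set n : ℕ := Nat.sqrt (m / C) with hn
  have hCpos : 0 < C := hC
  have hnN₂ : N₂ ≤ n := by
    rw [hn, Nat.le_sqrt, Nat.le_div_iff_mul_le hCpos]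
    calc N₂ * N₂ * C = C * N₂ ^ 2 := by ring
      _ ≤ m := by omega
  have hnN₁ : N₁ ≤ n := le_trans (le_max_left _ _) hnN₂
  have hn4C : 4 * C ≤ n := le_trans (le_max_right _ _) hnN₂
  have hle : C * n ^ 2 ≤ m := by
    have h1 : n * n ≤ m / C := Nat.sqrt_le (m / C)
    have h2 : C * (m / C) ≤ m := Nat.mul_div_le m C
    calc C * n ^ 2 = C * (n * n) := by ring
      _ ≤ C * (m / C) := Nat.mul_le_mul_left _ h1
      _ ≤ m := h2
  have h3 : m ≤ C * ((n + 1) * (n + 1)) := by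
    have h1 : m / C < (n + 1) * (n + 1) := Nat.lt_succ_sqrt (m / C)
    have h2 : m < C * (m / C) + C := by
      have := Nat.div_add_mod m C
      have := Nat.mod_lt m hCpos
      omega
    have h3 : C * (m / C) + C ≤ C * ((n + 1) * (n + 1)) := by
      have := Nat.mul_le_mul_left C (Nat.succ_le_of_lt h1)
      calc C * (m / C) + C = C * (m / C + 1) := by ring
        _ ≤ _ := this
    omega
  have hlt : m ≤ 4 * C * n ^ 2 := by
    have h4 : (n + 1) * (n + 1) ≤ 4 * n ^ 2 := by nlinarith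
    calc m ≤ C * ((n + 1) * (n + 1)) := h3
      _ ≤ C * (4 * n ^ 2) := Nat.mul_le_mul_left _ h4
      _ = 4 * C * n ^ 2 := by ring
  have hnm : n ≤ Nat.sqrt m := Nat.sqrt_le_sqrt (Nat.div_le_self _ _)
  have hnear : m ≤ C * n ^ 2 + 4 * C * Nat.sqrt m := by
    have e : C * ((n + 1) * (n + 1)) = C * n ^ 2 + C * (2 * n + 1) := by ring
    have e2 : C * (2 * n + 1) ≤ C * (4 * Nat.sqrt m) :=
      Nat.mul_le_mul_left _ (by omega)
    calc m ≤ C * n ^ 2 + C * (2 * n + 1) := by rw [← e]; exact h3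
      _ ≤ C * n ^ 2 + C * (4 * Nat.sqrt m) := Nat.add_le_add_left e2 _
      _ = C * n ^ 2 + 4 * C * Nat.sqrt m := by ring
  have h1 := hlow n hnN₁
  refine ⟨C * n ^ 2, hle, hnear, ?_⟩
  have hnpos : (0 : ℝ) < n := by
    have : 0 < n := by omega
    exact_mod_cast this
  have hmpos : (0 : ℝ) < m := by
    have : 0 < m := by omega
    exact_mod_cast this
  have hCr : (0 : ℝ) < C := by exact_mod_cast hCpos
  have hlogn : 0 ≤ Real.log n := Real.log_natCast_nonneg n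
  have e1 : (m : ℝ) ≤ 4 * C * (n : ℝ) ^ 2 := by exact_mod_cast hlt
  have e2 : (4 * (C : ℝ)) ≤ n := by exact_mod_cast hn4C
  have hlogm : Real.log m ≤ 3 * Real.log n := by
    have e3 : (m : ℝ) ≤ (n : ℝ) ^ 3 := by
      refine e1.trans ?_
      calc 4 * C * (n : ℝ) ^ 2 ≤ n * (n : ℝ) ^ 2 :=
            mul_le_mul_of_nonneg_right e2 (by positivity)
        _ = (n : ℝ) ^ 3 := by ring
    calc Real.log m ≤ Real.log ((n : ℝ) ^ 3) := Real.log_le_log hmpos e3
      _ = 3 * Real.log n := by rw [Real.log_pow]; norm_num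
  have h3 : (m : ℝ) * Real.log m ≤ 12 * C * ((n : ℝ) ^ 2 * Real.log n) := by
    calc (m : ℝ) * Real.log m ≤ (4 * C * (n : ℝ) ^ 2) * (3 * Real.log n) := by
          apply mul_le_mul e1 hlogm (Real.log_natCast_nonneg m) (by positivity)
      _ = 12 * C * ((n : ℝ) ^ 2 * Real.log n) := by ring
  calc d / (12 * C) * (m * Real.log m)
      ≤ d / (12 * C) * (12 * C * ((n : ℝ) ^ 2 * Real.log n)) :=
        mul_le_mul_of_nonneg_left h3 (by positivity)
    _ = d * ((n : ℝ) ^ 2 * Real.log n) := by field_simp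
    _ ≤ T (C * n ^ 2) := h1

/-- **No monotonicity.**  If transposing `n × n` bit matrices takes `Ω(n² log n)` steps, then for
every machine `A` that multiplies, for all large `n` some length `m ≤ n` (even
`m ≥ n - O(√n)`) has `T_A(m) ≥ c n log n`. -/
theorem q1_near {C : ℕ} (hC : 1 ≤ C) (h : Transfer C) (hTr : TranspositionConjecture)
    (A : Machine) (hA : Multiplies A) :
    ∃ c : ℝ, 0 < c ∧ ∃ N₀ : ℕ, 2 ≤ N₀ ∧ ∀ n : ℕ, N₀ ≤ n →
      ∃ m : ℕ, m ≤ n ∧ n ≤ m + 4 * C * Nat.sqrt n ∧ c * (n * Real.log n) ≤ mulTime A m := by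
  obtain ⟨d, hd, N₁, -, hlow⟩ := lower_at_squares h hTr A hA 0
  exact near_of_squares hC (T := fun n => (mulTime A n : ℝ)) hd (by simpa using hlow)

/-- Q1 for every machine whose running time is, up to a constant factor, nondecreasing from some
point on. -/
theorem q1_of_eventually_almost_monotone {C : ℕ} (hC : 1 ≤ C) (h : Transfer C)
    (hTr : TranspositionConjecture) (A : Machine) (hA : Multiplies A) {L : ℝ} {n₀ : ℕ}
    (hmono : ∀ m n : ℕ, n₀ ≤ m → m ≤ n → (mulTime A m : ℝ) ≤ L * mulTime A n) :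
    ∃ c : ℝ, 0 < c ∧ ∃ N₀ : ℕ, 2 ≤ N₀ ∧ ∀ n : ℕ, N₀ ≤ n →
      c * (n * Real.log n) ≤ mulTime A n := by
  obtain ⟨c, hc, N₀, hN₀, hlow⟩ := q1_near hC h hTr A hA
  set L' : ℝ := max L 1 with hL'
  have hL'1 : 1 ≤ L' := le_max_right _ _
  have hLL' : L ≤ L' := le_max_left _ _
  refine ⟨c / L', by positivity, max N₀ (2 * n₀ + 64 * C ^ 2),
    le_max_of_le_left hN₀, fun n hn => ?_⟩
  have hnN₀ : N₀ ≤ n := le_trans (le_max_left _ _) hn
  have hn2 : 2 * n₀ + 64 * C ^ 2 ≤ n := le_trans (le_max_right _ _) hn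
  obtain ⟨m, hmn, hnm, hm⟩ := hlow n hnN₀
  have hs : 8 * C ≤ Nat.sqrt n := by
    rw [Nat.le_sqrt]
    calc 8 * C * (8 * C) = 64 * C ^ 2 := by ring
      _ ≤ n := by omega
  have hs2 : Nat.sqrt n * Nat.sqrt n ≤ n := Nat.sqrt_le n
  have hs3 : 2 * (4 * C * Nat.sqrt n) ≤ n := by
    calc 2 * (4 * C * Nat.sqrt n) = 8 * C * Nat.sqrt n := by ring
      _ ≤ Nat.sqrt n * Nat.sqrt n := Nat.mul_le_mul_right _ hs
      _ ≤ n := hs2
  have hm0 : n₀ ≤ m := by omega
  have h1 := hmono m n hm0 hmn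
  have h2 : L * (mulTime A n : ℝ) ≤ L' * mulTime A n :=
    mul_le_mul_of_nonneg_right hLL' (Nat.cast_nonneg _)
  have hLpos : 0 < L' := by linarith
  rw [div_mul_eq_mul_div, div_le_iff₀ hLpos]
  calc c * (n * Real.log n) ≤ mulTime A m := hm
    _ ≤ L * mulTime A n := h1
    _ ≤ L' * mulTime A n := h2
    _ = mulTime A n * L' := by ring

end Vale.Agent.P338
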