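import Vale.Agent.P338.H932.MachineM
import Vale.Agent.P338.H933.Embed
import Vale.Agent.P338.H463.NumM
import Vale.Agent.P338.H463.Call

/-!
# P338: a multiplying machine exists

The definitions of `Defs.lean` are not vacuous: the machine of the school method multiplies, in
time `O(n²)`.
-/

namespace Vale.Agent.P338.Exi

open Vale.Agent.P338 Vale.Agent.P338.Num

/-- Registers. -/
inductive MR : Type
  | I | A | B | C | out
  | n (r : NR)
  deriving DecidableEq

instance : Finite NR := by
  refine Finite.of_surjective (fun i : Fin 13 => match i with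
    | 0 => NR.acc | 1 => .x | 2 => .y | 3 => .p | 4 => .ta | 5 => .tb | 6 => .tp | 7 => .tx
    | 8 => .c1 | 9 => .c2 | 10 => .yr | 11 => .bt | 12 => .f) ?_
  intro r
  cases r
  exacts [⟨0, rfl⟩, ⟨1, rfl⟩, ⟨2, rfl⟩, ⟨3, rfl⟩, ⟨4, rfl⟩, ⟨5, rfl⟩, ⟨6, rfl⟩, ⟨7, rfl⟩, ⟨8, rfl⟩,
    ⟨9, rfl⟩, ⟨10, rfl⟩, ⟨11, rfl⟩, ⟨12, rfl⟩]

instance : Finite MR := by
  refine Finite.of_surjective (fun i : Option (Option (Option (Option (Option NR)))) => match i with
    | none => MR.I | some none => .A | some (some none) => .B | some (some (some none)) => .C
    | some (some (some (some none))) => .out | some (some (some (some (some r)))) => .n r) ?_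
  intro r
  cases r with
  | I => exact ⟨none, rfl⟩
  | A => exact ⟨some none, rfl⟩
  | B => exact ⟨some (some none), rfl⟩
  | C => exact ⟨some (some (some none)), rfl⟩
  | out => exact ⟨some (some (some (some none))), rfl⟩
  | n r => exact ⟨some (some (some (some (some r)))), rfl⟩

/-- The store of a state; symbols `some b` are bits, `none` is the separator. -/
def mst (I : List (Option Bool)) (A B C out : List Bool) (s : NS) : Store MR (Option Bool)
  | .I => I
  | .A => A.map some
  | .B => B.map some
  | .C => C.map some
  | .out => out.map some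
  | .n r => (s.st r).map some

/-- the arithmetic registers -/
def numEmb : Emb NR MR Bool (Option Bool) where
  reg := .n
  regInv
    | .n r => some r
    | _ => none
  reg_inv := fun _ => rfl
  reg_eq := by
    intro r r' h
    cases r <;> simp at h
    subst h; rfl
  sym := some
  symInv := id
  sym_inv := fun _ => rfl

/-- a run of the arithmetic inside -/
theorem num_runs {p : Prog NR Bool} {s s' : NS} {c : ℕ} (h : Runs p s.st s'.st c)
    (I : List (Option Bool)) (A B C out : List Bool) :
    Runs (p.emb numEmb) (mst I A B C out s) (mst I A B C out s') c := by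
  refine h.emb numEmb (fun r => rfl) (fun r => rfl) ?_
  intro r hr
  cases r <;> first | rfl | (simp [numEmb] at hr)

/-- copy bits from `I` to `A` up to the separator, one tick on `B` for each -/
def parse : Prog MR (Option Bool) :=
  .loop (fun t => match t .I with
    | some (some _) => true
    | _ => false) (.act fun t r => match r with
    | .I => .pop
    | .A => .push ((t .I).getD none)
    | .B => .push (some false)
    | _ => .nop)

theorem parse_runs (y : List Bool) (rest : List (Option Bool))
    (hrest : ∀ b l, rest ≠ some b :: l) (A : List Bool) (k : ℕ) (C out : List Bool) (s : NS) :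
    Runs parse (mst (y.map some ++ rest) A (zer k) C out s)
      (mst rest (y.reverse ++ A) (zer (y.length + k)) C out s) (2 * y.length + 1) := by
  induction y generalizing A k with
  | nil =>
    refine (Runs.loop_stop ?_).conv (by simp) (by simp)
    simp only [List.map_nil, List.nil_append, Store.tops, mst]
    cases rest with
    | nil => rfl
    | cons a l =>
      cases a with
      | none => rfl
      | some b => exact absurd rfl (hrest b l)
  | cons b y ih =>
    have h1 : Runs (.act fun t r => match r with
        | .I => .pop
        | .A => .push ((t .I).getD none)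
        | .B => .push (some false)
        | _ => .nop) (mst ((b :: y).map some ++ rest) A (zer k) C out s)
        (mst (y.map some ++ rest) (b :: A) (zer (k + 1)) C out s) 1 := by
      refine (Runs.act _ _).conv ?_ le_rfl
      funext r
      cases r <;> simp [Store.tops, mst, Op.app, zer, List.replicate_succ]
    refine (Runs.loop_step (t := fun t => match t .I with
      | some (some _) => true
      | _ => false) (by simp [Store.tops, mst]) h1 (ih (b :: A) (k + 1))).conv ?_ (by
        simp only [List.length_cons]; omega)
    simp only [List.reverse_cons, List.append_assoc, List.singleton_append, List.length_cons]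
    congr 2
    omega

/-- push a zero on `A` for every tick of `B` -/
def padStep : Prog MR (Option Bool) := .act fun _ r => match r with
    | .B => .pop
    | .C => .push (some false)
    | .A => .push (some false)
    | _ => .nop

/-- push `n + 1` zeros on `A` -/
def padA : Prog MR (Option Bool) :=
  .seq (.whileNE .B padStep) (.seq (.flip .C .B) (.push .A (some false)))

theorem padLoop_runs (I : List (Option Bool)) (A : List Bool) (n k : ℕ) (out : List Bool) (s : NS) :
    Runs (.whileNE .B padStep) (mst I A (zer n) (zer k) out s)
      (mst I (zer n ++ A) [] (zer (n + k)) out s) (2 * n + 1) := by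
  induction n generalizing A k with
  | zero => exact (Runs.whileNE_nil rfl).conv (by simp [zer]) (by simp)
  | succ n ih =>
    have h1 : Runs padStep (mst I A (zer (n + 1)) (zer k) out s)
        (mst I (false :: A) (zer n) (zer (k + 1)) out s) 1 := by
      refine (Runs.act _ _).conv ?_ le_rfl
      funext r
      cases r <;> simp [mst, Op.app, zer, List.replicate_succ]
    refine (Runs.whileNE_cons (r := .B) (s := mst I A (zer (n + 1)) (zer k) out s) rfl h1
      (ih (false :: A) (k + 1))).conv ?_ (by omega)
    have e1 : zer n ++ false :: A = zer (n + 1) ++ A := by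
      rw [zer, zer, List.replicate_succ', List.append_assoc]; rfl
    rw [e1, show n + (k + 1) = n + 1 + k by omega]

theorem padA_runs (I : List (Option Bool)) (A : List Bool) (n : ℕ) (out : List Bool) (s : NS) :
    Runs padA (mst I A (zer n) [] out s)
      (mst I (zer (n + 1) ++ A) (zer n) [] out s) (4 * n + 3) := by
  have h1 := padLoop_runs I A n 0 out s
  have h2 : Runs (.flip .C .B) (mst I (zer n ++ A) [] (zer (n + 0)) out s)
      (mst I (zer n ++ A) (zer n) [] out s) (2 * n + 1) := by
    refine (Runs.flip (r := MR.C) (q := MR.B) (by decide) _).conv ?_ (by simp [mst, zer])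
    funext r
    cases r <;> simp [mst, zer]
  have h3 : Runs (.push .A (some false)) (mst I (zer n ++ A) (zer n) [] out s)
      (mst I (zer (n + 1) ++ A) (zer n) [] out s) 1 := by
    refine (Runs.push MR.A (some false) _).conv ?_ le_rfl
    funext r
    cases r <;> simp [mst, zer, List.replicate_succ]
  exact h1.seq' (h2.seq' h3 le_rfl) (by omega)

theorem flipA_y (I : List (Option Bool)) (A B C out : List Bool) (s : NS) :
    Runs (.flip .A (.n .y)) (mst I A B C out s)
      (mst I [] B C out { s with y := A.reverse ++ s.y }) (2 * A.length + 1) := by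
  refine (Runs.flip (r := MR.A) (q := MR.n .y) (by decide) _).conv ?_ (by simp [mst])
  funext r
  cases r with
  | n r => cases r <;> simp [mst, NS.st]
  | _ => simp [mst]

theorem flipA_x (I : List (Option Bool)) (A B C out : List Bool) (s : NS) :
    Runs (.flip .A (.n .x)) (mst I A B C out s)
      (mst I [] B C out { s with x := A.reverse ++ s.x }) (2 * A.length + 1) := by
  refine (Runs.flip (r := MR.A) (q := MR.n .x) (by decide) _).conv ?_ (by simp [mst])
  funext r
  cases r with
  | n r => cases r <;> simp [mst, NS.st]
  | _ => simp [mst]

theorem flipI_A (x : List Bool) (B C out : List Bool) (s : NS) :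
    Runs (.flip .I .A) (mst (x.reverse.map some) [] B C out s)
      (mst [] x B C out s) (2 * x.length + 1) := by
  refine (Runs.flip (r := MR.I) (q := MR.A) (by decide) _).conv ?_ (by simp [mst])
  funext r
  cases r <;> simp [mst]

theorem flip_out (I : List (Option Bool)) (A B C : List Bool) (s : NS) :
    Runs (.flip (.n .acc) .out) (mst I A B C [] s)
      (mst I A B C s.acc.reverse { s with acc := [] }) (2 * s.acc.length + 1) := by
  refine (Runs.flip (r := MR.n .acc) (q := MR.out) (by decide) _).conv ?_ (by simp [mst, NS.st])
  funext r
  cases r with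
  | n r => cases r <;> simp [mst, NS.st]
  | _ => simp [mst, NS.st]

/-- push a zero on `p` for every tick of `B`, the ticks go to `C` -/
def pStep (B C : MR) : Prog MR (Option Bool) := .act fun _ r =>
  if r = B then .pop else if r = C then .push (some false)
    else if r = .n .p then .push (some false) else .nop

/-- `p := 2 ^ (2 n)` -/
def padP : Prog MR (Option Bool) :=
  .seq (.push (.n .p) (some true))
    (.seq (.whileNE .B (pStep .B .C)) (.whileNE .C (pStep .C .B)))

theorem pLoop1 (I : List (Option Bool)) (A : List Bool) (n k : ℕ) (out : List Bool) (s : NS) :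
    Runs (.whileNE .B (pStep .B .C)) (mst I A (zer n) (zer k) out s)
      (mst I A [] (zer (n + k)) out { s with p := zer n ++ s.p }) (2 * n + 1) := by
  induction n generalizing k s with
  | zero => exact (Runs.whileNE_nil rfl).conv (by simp [zer]) (by simp)
  | succ n ih =>
    have h1 : Runs (pStep .B .C) (mst I A (zer (n + 1)) (zer k) out s)
        (mst I A (zer n) (zer (k + 1)) out { s with p := false :: s.p }) 1 := by
      refine (Runs.act _ _).conv ?_ le_rfl
      funext r
      cases r with
      | n r => cases r <;> simp [mst, Op.app, NS.st]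
      | _ => simp [mst, Op.app, zer, List.replicate_succ]
    refine (Runs.whileNE_cons (r := .B) (s := mst I A (zer (n + 1)) (zer k) out s) rfl h1
      (ih (k + 1) { s with p := false :: s.p })).conv ?_ (by omega)
    have e1 : zer n ++ false :: s.p = zer (n + 1) ++ s.p := by
      rw [zer, zer, List.replicate_succ', List.append_assoc]; rfl
    simp only [e1, show n + (k + 1) = n + 1 + k by omega]

theorem pLoop2 (I : List (Option Bool)) (A : List Bool) (n k : ℕ) (out : List Bool) (s : NS) :
    Runs (.whileNE .C (pStep .C .B)) (mst I A (zer k) (zer n) out s)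
      (mst I A (zer (n + k)) [] out { s with p := zer n ++ s.p }) (2 * n + 1) := by
  induction n generalizing k s with
  | zero => exact (Runs.whileNE_nil rfl).conv (by simp [zer]) (by simp)
  | succ n ih =>
    have h1 : Runs (pStep .C .B) (mst I A (zer k) (zer (n + 1)) out s)
        (mst I A (zer (k + 1)) (zer n) out { s with p := false :: s.p }) 1 := by
      refine (Runs.act _ _).conv ?_ le_rfl
      funext r
      cases r with
      | n r => cases r <;> simp [mst, Op.app, NS.st]
      | _ => simp [mst, Op.app, zer, List.replicate_succ]
    refine (Runs.whileNE_cons (r := .C) (s := mst I A (zer k) (zer (n + 1)) out s) rfl h1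
      (ih (k + 1) { s with p := false :: s.p })).conv ?_ (by omega)
    have e1 : zer n ++ false :: s.p = zer (n + 1) ++ s.p := by
      rw [zer, zer, List.replicate_succ', List.append_assoc]; rfl
    simp only [e1, show n + (k + 1) = n + 1 + k by omega]

theorem padP_runs (I : List (Option Bool)) (A : List Bool) (n : ℕ) (out : List Bool) (s : NS)
    (hp : s.p = []) :
    Runs padP (mst I A (zer n) [] out s)
      (mst I A (zer n) [] out { s with p := zer (2 * n) ++ [true] }) (4 * n + 3) := by
  have h1 : Runs (.push (.n .p) (some true)) (mst I A (zer n) [] out s)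
      (mst I A (zer n) (zer 0) out { s with p := [true] }) 1 := by
    refine (Runs.push (MR.n .p) (some true) _).conv ?_ le_rfl
    funext r
    cases r with
    | n r => cases r <;> simp [mst, NS.st, hp]
    | _ => simp [mst, zer]
  have h2 := pLoop1 I A n 0 out { s with p := [true] }
  have h3 := pLoop2 I A n 0 out { s with p := zer n ++ [true] }
  have e1 : zer n ++ (zer n ++ [true]) = zer (2 * n) ++ [true] := by
    rw [← List.append_assoc, zer, zer, List.replicate_append_replicate, two_mul]
  simp only [e1, Nat.add_zero] at h3
  refine h1.seq' (h2.seq' (c := 4 * n + 2) (h3.conv ?_ le_rfl) (by omega)) (by omega)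
  rfl

/-- The program of the school method. -/
def schoolP : Prog MR (Option Bool) :=
  .seq parse (.seq (.pop .I) (.seq padA (.seq (.flip .A (.n .y)) (.seq (.flip .I .A)
    (.seq padA (.seq (.flip .A (.n .x)) (.seq padP (.seq (mulP.emb numEmb)
      (.seq (.flip (.n .acc) .out) (.pop .out))))))))))

theorem schoolP_runs (n : ℕ) (x y : List Bool) (hx : x.length = n) (hy : y.length = n) :
    ∃ s', Runs schoolP (Function.update (fun _ => []) .I
        (y.reverse.map some ++ none :: x.reverse.map some)) s' (20 * (2 * n + 1) ^ 2 + 160 * n + 90)
      ∧ s' .out = (bin (2 * n) (val x * val y)).map some := by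
  set W := 2 * n + 1 with hW
  -- the numbers
  have hvx : lval x.reverse = val x := by rw [← Sim.val_reverse, List.reverse_reverse]
  have hvy : lval y.reverse = val y := by rw [← Sim.val_reverse, List.reverse_reverse]
  have hlx : val x < 2 ^ n := by
    have := lval_lt x.reverse
    rwa [hvx, List.length_reverse, hx] at this
  have hly : val y < 2 ^ n := by
    have := lval_lt y.reverse
    rwa [hvy, List.length_reverse, hy] at this
  have hpow : 2 ^ n * 2 ^ n = 2 ^ (2 * n) := by rw [← pow_add]; congr 1; ring
  have hprod : val x * val y < 2 ^ (2 * n) := by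
    rw [← hpow]
    exact Nat.mul_lt_mul'' hlx hly
  have hn2 : 2 ^ n ≤ 2 ^ (2 * n) := Nat.pow_le_pow_right (by norm_num) (by omega)
  have e0 : (Function.update (fun _ => []) MR.I
      (y.reverse.map some ++ none :: x.reverse.map some) : Store MR (Option Bool)) =
      mst (y.reverse.map some ++ none :: x.reverse.map some) [] (zer 0) [] [] {} := by
    funext r
    cases r with
    | n r => cases r <;> simp [mst, NS.st]
    | _ => simp [mst, zer]
  have h1 := parse_runs y.reverse (none :: x.reverse.map some) (by intro b l h; simp at h) [] 0 []
    [] {}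
  simp only [List.reverse_reverse, List.append_nil, List.length_reverse, hy, Nat.add_zero] at h1
  have h2 : Runs (.pop .I) (mst (none :: x.reverse.map some) y (zer n) [] [] {})
      (mst (x.reverse.map some) y (zer n) [] [] {}) 1 := by
    refine (Runs.pop MR.I _).conv ?_ le_rfl
    funext r
    cases r <;> simp [mst]
  have h3 := padA_runs (x.reverse.map some) y n [] {}
  have h4 := flipA_y (x.reverse.map some) (zer (n + 1) ++ y) (zer n) [] [] {}
  have hY : (zer (n + 1) ++ y).reverse ++ [] = lbits W (val y) := by
    rw [List.append_nil]
    refine eq_lbits (by simp [zer, hy, hW]; omega) ?_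
    rw [List.reverse_append, lval_append, hvy]
    have : lval (zer (n + 1)).reverse = 0 := by
      rw [zer, List.reverse_replicate, lval_zer]
    rw [this]; ring
  have h5 := flipI_A x (zer n) [] [] { y := lbits W (val y) }
  have h6 := padA_runs [] x n [] { y := lbits W (val y) }
  have h7 := flipA_x [] (zer (n + 1) ++ x) (zer n) [] [] { y := lbits W (val y) }
  have hX : (zer (n + 1) ++ x).reverse ++ [] = lbits W (val x) := by
    rw [List.append_nil]
    refine eq_lbits (by simp [zer, hx, hW]; omega) ?_
    rw [List.reverse_append, lval_append, hvx]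
    have : lval (zer (n + 1)).reverse = 0 := by
      rw [zer, List.reverse_replicate, lval_zer]
    rw [this]; ring
  have h8 := padP_runs [] [] n [] { x := lbits W (val x), y := lbits W (val y) } rfl
  have hP : zer (2 * n) ++ [true] = lbits W (2 ^ (2 * n)) := by
    refine eq_lbits (by simp [zer, hW]) ?_
    rw [lval_append, zer, lval_zer, List.length_replicate]
    simp [lval]
  have h9 := num_runs (mulP_runs (W := W) (P := 2 ^ (2 * n)) (u := val x) (v := val y)
    (lt_of_lt_of_le hlx hn2) (lt_of_lt_of_le hly hn2) (by rw [hW, pow_succ]; omega)
    { x := lbits W (val x), y := lbits W (val y), p := lbits W (2 ^ (2 * n)) }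
    ⟨rfl, rfl, rfl, rfl, rfl, rfl⟩ rfl rfl rfl rfl rfl rfl) [] [] (zer n) [] []
  rw [Nat.mod_eq_of_lt hprod] at h9
  have h10 := flip_out [] [] (zer n) []
    (NS.mk (lbits W (val x * val y)) (lbits W (val x)) (lbits W (val y))
      (lbits W (2 ^ (2 * n))) [] [] [] [] [] [] [] [] [])
  have hacc : (lbits W (val x * val y)).reverse = false :: bin (2 * n) (val x * val y) := by
    have : lbits W (val x * val y) = lbits (2 * n) (val x * val y) ++ [false] := by
      refine (eq_lbits (by simp [Num.lbits_length, hW]) ?_).symm
      rw [lval_append, lval_lbits, Nat.mod_eq_of_lt hprod]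
      simp [lval]
    rw [this, List.reverse_append, ← Sim.bin_reverse, List.reverse_reverse]
    rfl
  simp only [hacc, Num.lbits_length] at h10
  have h11 : Runs (.pop .out) (mst [] [] (zer n) [] (false :: bin (2 * n) (val x * val y))
      (NS.mk [] (lbits W (val x)) (lbits W (val y)) (lbits W (2 ^ (2 * n)))
        [] [] [] [] [] [] [] [] []))
      (mst [] [] (zer n) [] (bin (2 * n) (val x * val y))
      (NS.mk [] (lbits W (val x)) (lbits W (val y)) (lbits W (2 ^ (2 * n)))
        [] [] [] [] [] [] [] [] [])) 1 := by
    refine (Runs.pop MR.out _).conv ?_ le_rfl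
    funext r
    cases r <;> simp [mst]
  refine ⟨mst [] [] (zer n) [] (bin (2 * n) (val x * val y))
      (NS.mk [] (lbits W (val x)) (lbits W (val y)) (lbits W (2 ^ (2 * n)))
        [] [] [] [] [] [] [] [] []), ?_, rfl⟩
  rw [e0]
  simp only [hY] at h4
  simp only [hX] at h7
  simp only [hP] at h8
  exact h1.seq' (h2.seq' (h3.seq' (h4.seq' (h5.seq' (h6.seq' (h7.seq' (h8.seq' (h9.seq'
    (h10.seq' h11 le_rfl) le_rfl) le_rfl) le_rfl) le_rfl) le_rfl) le_rfl) le_rfl) le_rfl)
    (by
      simp only [List.length_append, zer, List.length_replicate, hx, hy]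
      rw [hW]
      ring_nf
      omega)

/-- **The school method**: there is a machine that multiplies, in time `O(n²)`. -/
theorem exists_multiplies : ∃ A : Machine, Multiplies A ∧ ∃ K : ℕ, ∀ n : ℕ, 1 ≤ n →
    mulTime A n ≤ K * n ^ 2 := by
  classical
  let _ : Fintype MR := Fintype.ofFinite MR
  obtain ⟨h1, h2⟩ := mulMachine_multiplies schoolP MR.I MR.out some none
    (fun o => o.getD false) (fun _ => rfl) (fun n => 20 * (2 * n + 1) ^ 2 + 160 * n + 90)
    (fun n _ x y hx hy => schoolP_runs n x y hx hy)
  refine ⟨_, h1, 2000, fun n hn => (h2 n hn).trans ?_⟩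
  nlinarith

end Vale.Agent.P338.Exi
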