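import Vale.Agent.P338.H932.Shear
import Vale.Agent.P338.H932.Pow
import Vale.Agent.P338.H933.Embed

/-!
# The loop over the levels (proposal E)

`lam` = number of low binary digits of the column number that are still to be treated.
If `lam = t + 1` is even, one digit is treated by `bit` (ruler `t`); if `lam = 2 mu + 1`, the
digits `mu, ..., 2 mu` are treated by `fast` (rulers `mu` and `E = zer (2 mu + 1)`) and
`lam := mu`.
-/

namespace Vale.Agent.P338

namespace H932

/-- The registers of the level loop (all are unary rulers). -/
inductive LR : Type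
  | lam | E | mu | t | f
  deriving DecidableEq

/-- a store of rulers -/
def st (lam E mu t f : ℕ) : Store LR Bool
  | .lam => zer lam
  | .E => zer E
  | .mu => zer mu
  | .t => zer t
  | .f => zer f

/-! ### Halving -/

/-- one tick of the ruler `lam`: copy it to `E`, toggle `f`, every second tick goes to `mu` -/
def splitStep : Prog LR Bool := .act fun t r =>
  match r with
  | .lam => .pop
  | .E => .push false
  | .f => if (t .f).isSome then .pop else .push false
  | .mu => if (t .f).isSome then .push false else .nop
  | _ => .nop

/-- `E := lam`, `mu := lam / 2`, `f := lam % 2`, `lam := 0` -/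
def split : Prog LR Bool := .whileNE .lam splitStep

theorem splitStep_zero (a b h t : ℕ) :
    Runs splitStep (st (a + 1) b h t 0) (st a (b + 1) h t 1) 1 := by
  refine (Runs.act _ _).conv ?_ le_rfl
  funext r
  cases r <;> simp [Store.tops, st, Op.app, zer_succ, zer_zero]

theorem splitStep_one (a b h t : ℕ) :
    Runs splitStep (st (a + 1) b h t 1) (st a (b + 1) (h + 1) t 0) 1 := by
  refine (Runs.act _ _).conv ?_ le_rfl
  funext r
  cases r <;> simp [Store.tops, st, Op.app, zer_succ, zer_zero]

theorem split_runs_aux (a b h t : ℕ) :
    Runs split (st a b h t 0) (st 0 (b + a) (h + a / 2) t (a % 2)) (2 * a + 1) ∧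
    Runs split (st a b h t 1) (st 0 (b + a) (h + (a + 1) / 2) t ((a + 1) % 2))
      (2 * a + 1) := by
  induction a generalizing b h with
  | zero =>
    constructor
    · exact (Runs.whileNE_nil rfl).conv (by simp) (by simp)
    · exact (Runs.whileNE_nil rfl).conv (by simp) (by simp)
  | succ a ih =>
    constructor
    · refine (Runs.whileNE_cons (r := .lam) (s := st (a + 1) b h t 0) rfl
        (splitStep_zero a b h t) (ih (b + 1) h).2).conv ?_ (by omega)
      rw [show b + 1 + a = b + (a + 1) by omega]
    · refine (Runs.whileNE_cons (r := .lam) (s := st (a + 1) b h t 1) rfl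
        (splitStep_one a b h t) (ih (b + 1) (h + 1)).1).conv ?_ (by omega)
      rw [show b + 1 + a = b + (a + 1) by omega,
        show h + 1 + a / 2 = h + (a + 1 + 1) / 2 by omega, show (a + 1 + 1) % 2 = a % 2 by omega]

theorem split_runs (a : ℕ) :
    Runs split (st a 0 0 0 0) (st 0 a (a / 2) 0 (a % 2)) (2 * a + 1) := by
  have := (split_runs_aux a 0 0 0).1
  simpa using this

/-! ### Preparation and clean-up of one level -/

/-- odd case, after `fast`: `lam := mu` -/
def postOdd : Prog LR Bool := .seq (.clear .E) (.seq (.flip .mu .lam) (.pop .f))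

/-- even case, before `bit`: `t := lam - 1` -/
def prepEven : Prog LR Bool := .seq (.clear .mu) (.seq (.pop .E) (.flip .E .t))

/-- even case, after `bit`: `lam := t` -/
def postEven : Prog LR Bool := .flip .t .lam

theorem postOdd_runs (mu : ℕ) :
    Runs postOdd (st 0 (2 * mu + 1) mu 0 1) (st mu 0 0 0 0) (6 * mu + 5) := by
  have h1 : Runs (.clear .E) (st 0 (2 * mu + 1) mu 0 1) (st 0 0 mu 0 1) (4 * mu + 3) := by
    refine (Runs.clear LR.E _).conv ?_ (by simp [st, zer_length]; omega)
    funext r
    cases r <;> simp [st, zer_zero]
  have h3 : Runs (.flip .mu .lam) (st 0 0 mu 0 1) (st mu 0 0 0 1) (2 * mu + 1) := by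
    refine (Runs.flip (r := LR.mu) (q := LR.lam) (by decide) _).conv ?_
      (by simp [st, zer_length])
    funext r
    cases r <;> simp [st, zer_zero, zer_reverse]
  have h4 : Runs (.pop .f) (st mu 0 0 0 1) (st mu 0 0 0 0) 1 := by
    refine (Runs.pop LR.f _).conv ?_ le_rfl
    funext r
    cases r <;> simp [st, zer_zero, zer_succ]
  exact h1.seq' (h3.seq' h4 le_rfl) (by omega)

theorem prepEven_runs (t : ℕ) :
    Runs prepEven (st 0 (t + 1) ((t + 1) / 2) 0 0) (st 0 0 0 t 0) (3 * t + 4) := by
  have h1 : Runs (.clear .mu) (st 0 (t + 1) ((t + 1) / 2) 0 0)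
      (st 0 (t + 1) 0 0 0) (t + 2) := by
    refine (Runs.clear LR.mu _).conv ?_ (by simp [st, zer_length]; omega)
    funext r
    cases r <;> simp [st, zer_zero]
  have h2 : Runs (.pop .E) (st 0 (t + 1) 0 0 0) (st 0 t 0 0 0) 1 := by
    refine (Runs.pop LR.E _).conv ?_ le_rfl
    funext r
    cases r <;> simp [st, zer_zero, zer_succ]
  have h3 : Runs (.flip .E .t) (st 0 t 0 0 0) (st 0 0 0 t 0) (2 * t + 1) := by
    refine (Runs.flip (r := LR.E) (q := LR.t) (by decide) _).conv ?_
      (by simp [st, zer_length])
    funext r
    cases r <;> simp [st, zer_zero, zer_reverse]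
  exact h1.seq' (h2.seq' h3 le_rfl) (by omega)

theorem postEven_runs (t : ℕ) :
    Runs postEven (st 0 0 0 t 0) (st t 0 0 0 0) (2 * t + 1) := by
  refine (Runs.flip (r := LR.t) (q := LR.lam) (by decide) _).conv ?_
      (by simp [st, zer_length])
  funext r
  cases r <;> simp [st, zer_zero, zer_reverse]

/-! ### The loop -/

/-- The cost of the level loop. -/
def levelCost (F : ℕ → ℕ) (G P : ℕ) : ℕ → ℕ
  | 0 => 1
  | a + 1 => if (a + 1) % 2 = 1 then F (a + 1) + P + levelCost F G P (a / 2)
      else G + P + levelCost F G P a
termination_by n => n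
decreasing_by all_goals omega

section loop

variable {R Γ : Type} [DecidableEq R]

/-- the body of the level loop: `fast` and `bit` are arbitrary programs of the large machine -/
def levelBody (e : Emb LR R Bool Γ) (fast bit : Prog R Γ) : Prog R Γ :=
  .seq (split.emb e)
    (.peek (e.reg .f) fun o =>
      if o.isSome then .seq fast (postOdd.emb e)
      else .seq (prepEven.emb e) (.seq bit (postEven.emb e)))

/-- the loop over the levels; at the start `lam = L`, at the end `lam = 0` -/
def levelLoop (e : Emb LR R Bool Γ) (fast bit : Prog R Γ) : Prog R Γ :=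
  .whileNE (e.reg .lam) (levelBody e fast bit)

/-- The level loop, for abstract programs `fast` and `bit`.  `base X` is the store (outside the
registers of the loop) with data `X`. -/
theorem levelLoop_runs (e : Emb LR R Bool Γ) {fast bit : Prog R Γ} {n L : ℕ} (hn : 2 ^ L ≤ n)
    (base : List Bool → Store R Γ) (F : ℕ → ℕ) (G : ℕ)
    (hfast : ∀ (mu : ℕ) (X : ℕ → ℕ → Bool), 2 * mu + 1 ≤ L →
      Runs fast (e.put (base (matL n X)) (st 0 (2 * mu + 1) mu 0 1))
        (e.put (base (matL n (colShift n (dig mu (2 * mu + 1)) X)))
          (st 0 (2 * mu + 1) mu 0 1)) (F (2 * mu + 1)))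
    (hbit : ∀ (t : ℕ) (X : ℕ → ℕ → Bool), t < L →
      Runs bit (e.put (base (matL n X)) (st 0 0 0 t 0))
        (e.put (base (matL n (colShift n (dig t (t + 1)) X)))
          (st 0 0 0 t 0)) G)
    (X : ℕ → ℕ → Bool) (lam : ℕ) (hlam : lam ≤ L) :
    Runs (levelLoop e fast bit)
      (e.put (base (matL n (colShift n (fun s => s - s % 2 ^ lam) X))) (st lam 0 0 0 0))
      (e.put (base (matL n (colShift n (fun s => s) X))) (st 0 0 0 0 0))
      (levelCost F G (20 * n) lam) := by
  induction lam using Nat.strong_induction_on with
  | _ lam ih =>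
    match lam, ih, hlam with
    | 0, _, _ =>
      have h1 : Runs (levelLoop e fast bit)
          (e.put (base (matL n (colShift n (fun s => s - s % 2 ^ 0) X))) (st 0 0 0 0 0))
          (e.put (base (matL n (colShift n (fun s => s - s % 2 ^ 0) X))) (st 0 0 0 0 0))
          1 := by
        refine Runs.whileNE_nil ?_
        rw [e.put_reg]
        rfl
      refine h1.conv ?_ (by rw [levelCost])
      congr 3
      funext j s
      simp only [colShift, pow_zero, Nat.mod_one, Nat.sub_zero]
    | a + 1, ih, hlam =>
      have hne : (e.put (base (matL n (colShift n (fun s => s - s % 2 ^ (a + 1)) X)))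
          (st (a + 1) 0 0 0 0)) (e.reg .lam) = e.sym false :: (zer a).map e.sym := by
        rw [e.put_reg]
        rfl
      have h1 := (split_runs (a + 1)).emb_put e
        (base (matL n (colShift n (fun s => s - s % 2 ^ (a + 1)) X)))
      have ha : a + 1 ≤ n := le_trans (le_trans hlam Nat.lt_two_pow_self.le) hn
      rcases Nat.mod_two_eq_zero_or_one (a + 1) with hpar | hpar
      · -- even: one digit
        rw [hpar] at h1
        have h2 := (prepEven_runs a).emb_put e
          (base (matL n (colShift n (fun s => s - s % 2 ^ (a + 1)) X)))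
        have h3 := hbit a (colShift n (fun s => s - s % 2 ^ (a + 1)) X) (by omega)
        have hX : matL n (colShift n (dig a (a + 1)) (colShift n (fun s => s - s % 2 ^ (a + 1)) X))
            = matL n (colShift n (fun s => s - s % 2 ^ a) X) :=
          matL_congr fun i s _ hs => colShift_level (Nat.le_succ a) X hs
        rw [hX] at h3
        have h4 := (postEven_runs a).emb_put e
          (base (matL n (colShift n (fun s => s - s % 2 ^ a) X)))
        have h5 := ih a (by omega) (by omega)
        have hbody : Runs (levelBody e fast bit)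
            (e.put (base (matL n (colShift n (fun s => s - s % 2 ^ (a + 1)) X)))
              (st (a + 1) 0 0 0 0))
            (e.put (base (matL n (colShift n (fun s => s - s % 2 ^ a) X))) (st a 0 0 0 0))
            (G + 20 * n - 1) := by
          refine h1.seq' (Runs.peek (c := G + 20 * n - 2 * (a + 1) - 3) ?_) (by omega)
          rw [e.put_reg]
          exact h2.seq' (h3.seq' h4 le_rfl) (by omega)
        refine (Runs.whileNE_cons hne hbody h5).weaken ?_
        rw [levelCost, if_neg (by omega)]
        omega
      · -- odd: a window of digits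
        obtain ⟨mu, rfl⟩ : ∃ mu, a = 2 * mu := ⟨a / 2, by omega⟩
        rw [hpar, show (2 * mu + 1) / 2 = mu by omega] at h1
        have h3 := hfast mu (colShift n (fun s => s - s % 2 ^ (2 * mu + 1)) X) (by omega)
        have hX : matL n (colShift n (dig mu (2 * mu + 1))
              (colShift n (fun s => s - s % 2 ^ (2 * mu + 1)) X))
            = matL n (colShift n (fun s => s - s % 2 ^ mu) X) :=
          matL_congr fun i s _ hs => colShift_level (by omega) X hs
        rw [hX] at h3
        have h4 := (postOdd_runs mu).emb_put e
          (base (matL n (colShift n (fun s => s - s % 2 ^ mu) X)))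
        have h5 := ih mu (by omega) (by omega)
        have hbody : Runs (levelBody e fast bit)
            (e.put (base (matL n (colShift n (fun s => s - s % 2 ^ (2 * mu + 1)) X)))
              (st (2 * mu + 1) 0 0 0 0))
            (e.put (base (matL n (colShift n (fun s => s - s % 2 ^ mu) X)))
              (st mu 0 0 0 0))
            (F (2 * mu + 1) + 20 * n - 1) := by
          refine h1.seq' (Runs.peek (c := F (2 * mu + 1) + 20 * n - 2 * (2 * mu + 1) - 3) ?_)
            (by omega)
          rw [e.put_reg]
          exact h3.seq' h4 (by omega)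
        refine (Runs.whileNE_cons hne hbody h5).weaken ?_
        rw [levelCost, if_pos hpar, show 2 * mu / 2 = mu by omega]
        omega

end loop

end H932

end Vale.Agent.P338
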