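import Vale.Agent.P338.H932.LevelsReg
import Vale.Agent.P338.H932.Cost
import Vale.Agent.P338.H933.MainGlue
import Vale.Agent.P338.H666.SelectReg

/-!
# Glueing the level loop into the main program
-/

namespace Vale.Agent.P338

open H932 H666

/-- Pad, rotate, shear, rotate, unpad = transpose. -/
theorem listOK : ListOK := by
  intro N hN w hw
  have h1 : Nat.sqrt N ≤ nn N := sqrt_le_outer N
  have h2 : Nat.sqrt N * Nat.sqrt N ≤ w.length := by rw [hw]; exact Nat.sqrt_le N
  rw [H51.padL_eq_matL h1 h2, rot2_shear_rot1 (n := nn N) (L := LL N) rfl]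
  exact H51.unpadL_transpose h1 w fun j i _ _ => rfl

/-- The level loop for an arbitrary fast operation which satisfies its specification. -/
theorem levelsOK_of_fast {A : Machine} (hA : Multiplies A) (s K : ℕ)
    (fastOp : Prog (Reg ⊕ Sim.AReg A) (Bool ⊕ Sim.ASym A))
    (hf : ∀ L m : ℕ, 26 * 2 ^ L * 2 ^ L ≤ m →
      FastSpec fastOp L m (fun a => K * min (mulTime A m + m) (m * a))) : LevelsOK A s := by
  set cost : ℕ → ℕ := fun N =>
    levelCost (fun a => K * min (mulTime A (128 * N + s) + (128 * N + s)) ((128 * N + s) * a)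
        + 19 * 2 ^ LL N) (80 * (128 * N + s) + 31 * (2 ^ LL N * 2 ^ LL N) + 4) (20 * 2 ^ LL N)
        (LL N) + 4 * LL N + 2 with hcost
  refine ⟨levels fastOp BITOP, cost, ?_, ?_⟩
  · refine levels_costBound hA (K := K + 80) (by norm_num) cost fun N hN => ?_
    have hsq : 2 ^ LL N * 2 ^ LL N ≤ 4 * N := outer_sq_le (by omega)
    refine ⟨LL N, 80 * (128 * N + s),
      fun a => K * min (mulTime A (128 * N + s) + (128 * N + s)) ((128 * N + s) * a), ?_, ?_,
      fun a _ => ?_, ?_, ?_⟩
    · have h1 : Nat.sqrt N ≤ 2 ^ (Nat.log 2 N + 1) := by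
        have h2 := Nat.lt_pow_succ_log_self (b := 2) (by norm_num) N
        have h3 := Nat.sqrt_le_self N
        exact h3.trans h2.le
      exact (Nat.clog_le_iff_le_pow (by norm_num)).2 h1
    · omega
    · exact Nat.mul_le_mul_right _ (Nat.le_add_right _ _)
    · exact Nat.mul_le_mul_right _ (Nat.le_add_left _ _)
    · exact Nat.le_add_right _ _
  · intro N hN X hX
    have hsq : 2 ^ LL N * 2 ^ LL N ≤ 4 * N := outer_sq_le hN
    have hm : 26 * 2 ^ LL N * 2 ^ LL N ≤ 128 * N + s := by
      rw [Nat.mul_assoc]; omega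
    have h1 := levels_runs (Y := Sim.AReg A) (Z := Sim.ASym A) (hf (LL N) (128 * N + s) hm)
      (bitop := BITOP) (G := 80 * (128 * N + s))
      (fun s' t ht htc hrn h2t h2tn hX' =>
        hBITOP s' (LL N) t (128 * N + s) ht (by omega) htc hrn h2t h2tn hX')
      (outerSt s N X)
      ⟨by intro r hr; cases r <;> first | rfl | (simp [Reg.work] at hr), rfl, rfl, rfl, rfl, rfl,
        rfl, rfl⟩ rfl ⟨rfl, rfl, rfl, rfl⟩ hX
    have e : outerSt s N X .X = X := rfl
    rw [e, update_outerSt_X] at h1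
    exact h1

end Vale.Agent.P338
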