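import Mathlib

/-!
# List level of the scale recursion

`blk n f` is the stream `f 0 ++ f 1 ++ ... ++ f (n-1)`.  A bit matrix with further structure is a
nested `blk`.  One scale of the algorithm consists of three digit swaps.
-/

namespace Vale.Agent.P338.H932

variable {α : Type*}

/-- the stream `f 0 ++ f 1 ++ ⋯ ++ f (n-1)` -/
def blk (n : ℕ) (f : ℕ → List α) : List α := (List.range n).flatMap f

@[simp] theorem blk_zero (f : ℕ → List α) : blk 0 f = [] := rfl

theorem blk_succ (n : ℕ) (f : ℕ → List α) : blk (n + 1) f = blk n f ++ f n := by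
  simp [blk, List.range_succ]

theorem blk_succ' (n : ℕ) (f : ℕ → List α) :
    blk (n + 1) f = f 0 ++ blk n (fun i => f (i + 1)) := by
  simp [blk, List.range_succ_eq_map, List.flatMap_map]

@[simp] theorem blk_one (f : ℕ → List α) : blk 1 f = f 0 := by
  simp [blk]

theorem blk_add (m n : ℕ) (f : ℕ → List α) :
    blk (m + n) f = blk m f ++ blk n (fun i => f (m + i)) := by
  induction n with
  | zero => simp
  | succ n ih => rw [← Nat.add_assoc, blk_succ, ih, blk_succ]; simp

theorem blk_congr {n : ℕ} {f g : ℕ → List α} (h : ∀ i, i < n → f i = g i) :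
    blk n f = blk n g := by
  induction n with
  | zero => rfl
  | succ n ih =>
    rw [blk_succ, blk_succ, ih (fun i hi => h i (by omega)), h n (by omega)]

theorem blk_length {n p : ℕ} {f : ℕ → List α} (h : ∀ i, i < n → (f i).length = p) :
    (blk n f).length = n * p := by
  induction n with
  | zero => simp
  | succ n ih =>
    rw [blk_succ, List.length_append, ih (fun i hi => h i (by omega)), h n (by omega)]
    ring

/-- splitting an index into two digits -/
theorem blk_mul (m n : ℕ) (f : ℕ → List α) :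
    blk (m * n) f = blk m (fun i => blk n (fun j => f (i * n + j))) := by
  induction m with
  | zero => simp
  | succ m ih => rw [Nat.succ_mul, blk_add, ih, blk_succ]

/-- `a` blocks, each of which is a `K × S` array of payloads. -/
def arr (a K S : ℕ) (f : ℕ → ℕ → ℕ → List α) : List α :=
  blk a fun c => blk K fun i => blk S fun j => f c i j

/-- `a` blocks, each of which is a `n × n` matrix of bits (row by row). -/
def mats (a n : ℕ) (x : ℕ → ℕ → ℕ → α) : List α :=
  blk a fun c => blk n fun i => blk n fun j => [x c i j]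

/-- the coordinates of the blocks of the next scale: block `c' = (c * t₁ + j₁) * t₁ + i₁`,
entries `(i₀, j₀)` of a `t × t` matrix -/
def sub (t t₁ : ℕ) (x : ℕ → ℕ → ℕ → α) : ℕ → ℕ → ℕ → α := fun c' i₀ j₀ =>
  x (c' / t₁ / t₁) (c' % t₁ * t + i₀) (c' / t₁ % t₁ * t + j₀)

theorem sub_apply {t t₁ : ℕ} (x : ℕ → ℕ → ℕ → α) {c j₁ i₁ : ℕ} (i₀ j₀ : ℕ)
    (hj : j₁ < t₁) (hi : i₁ < t₁) :
    sub t t₁ x ((c * t₁ + j₁) * t₁ + i₁) i₀ j₀ = x c (i₁ * t + i₀) (j₁ * t + j₀) := by
  have h0 : 0 < t₁ := by omega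
  have h1 : ((c * t₁ + j₁) * t₁ + i₁) / t₁ = c * t₁ + j₁ := by
    rw [Nat.add_comm, Nat.add_mul_div_right _ _ h0, Nat.div_eq_of_lt hi]; simp
  have h2 : ((c * t₁ + j₁) * t₁ + i₁) % t₁ = i₁ := by
    rw [Nat.add_comm, Nat.add_mul_mod_self_right, Nat.mod_eq_of_lt hi]
  have h3 : (c * t₁ + j₁) / t₁ = c := by
    rw [Nat.add_comm, Nat.add_mul_div_right _ _ h0, Nat.div_eq_of_lt hj]; simp
  have h4 : (c * t₁ + j₁) % t₁ = j₁ := by
    rw [Nat.add_comm, Nat.add_mul_mod_self_right, Nat.mod_eq_of_lt hj]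
  simp only [sub, h1, h2, h3, h4]

/-- the result of swapping the two digits of an array -/
def swp (f : ℕ → ℕ → ℕ → List α) : ℕ → ℕ → ℕ → List α := fun c j i => f c i j

theorem arr_congr {a K S : ℕ} {f g : ℕ → ℕ → ℕ → List α}
    (h : ∀ c i j, c < a → i < K → j < S → f c i j = g c i j) : arr a K S f = arr a K S g :=
  blk_congr fun c hc => blk_congr fun i hi => blk_congr fun j hj => h c i j hc hi hj

theorem arr_length {a K S p : ℕ} {f : ℕ → ℕ → ℕ → List α}
    (h : ∀ c i j, c < a → i < K → j < S → (f c i j).length = p) :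
    (arr a K S f).length = a * (K * (S * p)) :=
  blk_length fun c hc => blk_length fun i hi => blk_length fun j hj => h c i j hc hi hj

theorem mats_length (a n : ℕ) (x : ℕ → ℕ → ℕ → α) : (mats a n x).length = a * (n * n) := by
  have := arr_length (a := a) (K := n) (S := n) (p := 1) (f := fun c i j => [x c i j])
    (fun _ _ _ _ _ _ => rfl)
  simpa [mats, arr] using this

/-- block index `c' = c * t₁ + d` -/
theorem div_mod_digit {t₁ c d : ℕ} (hd : d < t₁) :
    (c * t₁ + d) / t₁ = c ∧ (c * t₁ + d) % t₁ = d := by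
  have h0 : 0 < t₁ := by omega
  constructor
  · rw [Nat.add_comm, Nat.add_mul_div_right _ _ h0, Nat.div_eq_of_lt hd]; simp
  · rw [Nat.add_comm, Nat.add_mul_mod_self_right, Nat.mod_eq_of_lt hd]

/-- payloads before/after the first swap -/
def pay1 (t t₁ : ℕ) (x : ℕ → ℕ → ℕ → α) : ℕ → ℕ → ℕ → List α := fun c' i₀ j₁ =>
  blk t fun j₀ => [x (c' / t₁) (c' % t₁ * t + i₀) (j₁ * t + j₀)]

/-- payloads before/after the second swap -/
def pay2 (t : ℕ) (x : ℕ → ℕ → ℕ → α) : ℕ → ℕ → ℕ → List α := fun c i₁ j₁ =>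
  blk t fun i₀ => blk t fun j₀ => [x c (i₁ * t + i₀) (j₁ * t + j₀)]

/-- payloads before/after the third swap -/
def pay3 (t t₁ : ℕ) (x : ℕ → ℕ → ℕ → α) : ℕ → ℕ → ℕ → List α := fun c' i₁ j₀ =>
  blk t fun i₀ => [x (c' / t₁) (i₁ * t + i₀) (c' % t₁ * t + j₀)]

theorem pay1_length (t t₁ : ℕ) (x : ℕ → ℕ → ℕ → α) (c i j : ℕ) :
    (pay1 t t₁ x c i j).length = t := by
  rw [pay1, blk_length (p := 1) (fun _ _ => rfl), Nat.mul_one]

theorem pay2_length (t : ℕ) (x : ℕ → ℕ → ℕ → α) (c i j : ℕ) :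
    (pay2 t x c i j).length = t * t := by
  rw [pay2, blk_length (p := t) (fun _ _ => by
    rw [blk_length (p := 1) (fun _ _ => rfl), Nat.mul_one])]

theorem pay3_length (t t₁ : ℕ) (x : ℕ → ℕ → ℕ → α) (c i j : ℕ) :
    (pay3 t t₁ x c i j).length = t := by
  rw [pay3, blk_length (p := 1) (fun _ _ => rfl), Nat.mul_one]

/-- A matrix stream is the input of the first swap. -/
theorem mats_eq_pay1 (a t t₁ : ℕ) (x : ℕ → ℕ → ℕ → α) :
    mats a (t₁ * t) x = arr (a * t₁) t t₁ (pay1 t t₁ x) := by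
  unfold mats arr
  rw [blk_mul a t₁]
  refine blk_congr fun c _ => ?_
  rw [blk_mul t₁ t]
  refine blk_congr fun i₁ hi₁ => ?_
  refine blk_congr fun i₀ _ => ?_
  rw [blk_mul t₁ t]
  refine blk_congr fun j₁ _ => ?_
  simp only [pay1, (div_mod_digit hi₁).1, (div_mod_digit hi₁).2]

/-- The output of the first swap is the input of the second. -/
theorem swp_pay1_eq_pay2 (a t t₁ : ℕ) (x : ℕ → ℕ → ℕ → α) :
    arr (a * t₁) t₁ t (swp (pay1 t t₁ x)) = arr a t₁ t₁ (pay2 t x) := by
  unfold arr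
  rw [blk_mul a t₁]
  refine blk_congr fun c _ => ?_
  refine blk_congr fun i₁ hi₁ => ?_
  refine blk_congr fun j₁ _ => ?_
  unfold pay2
  refine blk_congr fun i₀ _ => ?_
  simp only [swp, pay1, (div_mod_digit hi₁).1, (div_mod_digit hi₁).2]

/-- The output of the second swap is the matrix stream of the next scale. -/
theorem swp_pay2_eq_mats (a t t₁ : ℕ) (x : ℕ → ℕ → ℕ → α) :
    arr a t₁ t₁ (swp (pay2 t x)) = mats (a * t₁ * t₁) t (sub t t₁ x) := by
  unfold arr mats
  rw [blk_mul (a * t₁) t₁, blk_mul a t₁]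
  refine blk_congr fun c _ => ?_
  refine blk_congr fun j₁ hj₁ => ?_
  refine blk_congr fun i₁ hi₁ => ?_
  unfold swp pay2
  refine blk_congr fun i₀ _ => ?_
  refine blk_congr fun j₀ _ => ?_
  rw [sub_apply x i₀ j₀ hj₁ hi₁]

/-- exchange rows and columns -/
def tr (x : ℕ → ℕ → ℕ → α) : ℕ → ℕ → ℕ → α := fun c i j => x c j i

/-- The transposed blocks of the next scale are the input of the third swap. -/
theorem mats_tr_sub_eq_pay3 (a t t₁ : ℕ) (x : ℕ → ℕ → ℕ → α) :
    mats (a * t₁ * t₁) t (tr (sub t t₁ x)) = arr (a * t₁) t₁ t (pay3 t t₁ x) := by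
  unfold arr mats
  rw [blk_mul (a * t₁) t₁, blk_mul a t₁, blk_mul a t₁]
  refine blk_congr fun c _ => ?_
  refine blk_congr fun j₁ hj₁ => ?_
  refine blk_congr fun i₁ hi₁ => ?_
  refine blk_congr fun j₀ _ => ?_
  unfold pay3
  refine blk_congr fun i₀ _ => ?_
  simp only [tr]
  rw [sub_apply x i₀ j₀ hj₁ hi₁, (div_mod_digit hj₁).1, (div_mod_digit hj₁).2]

/-- The output of the third swap is the stream of the transposed matrices. -/
theorem swp_pay3_eq_mats (a t t₁ : ℕ) (x : ℕ → ℕ → ℕ → α) :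
    arr (a * t₁) t t₁ (swp (pay3 t t₁ x)) = mats a (t₁ * t) (tr x) := by
  unfold arr mats
  rw [blk_mul a t₁]
  refine blk_congr fun c _ => ?_
  rw [blk_mul t₁ t]
  refine blk_congr fun j₁ hj₁ => ?_
  refine blk_congr fun j₀ _ => ?_
  rw [blk_mul t₁ t]
  refine blk_congr fun i₁ _ => ?_
  simp only [swp, pay3, tr, (div_mod_digit hj₁).1, (div_mod_digit hj₁).2]

/-- matrices of size `1 × 1` are their own transposes -/
theorem mats_one_tr (a : ℕ) (x : ℕ → ℕ → ℕ → α) : mats a 1 (tr x) = mats a 1 x := by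
  simp [mats, tr]

end Vale.Agent.P338.H932
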