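import Vale.Agent.P338.H51.Machine

/-!
# P338: from tape automata to machines with input `x#y`

The same construction as in `H51/Wrap.lean`, for input words over `0, 1, #`: an input word is
given by `v : List (Option Bool)`, where `none` is the separator.
-/

namespace Vale.Agent.P338.WrapM

open Machine (written)
open H51 (TA TC encL encS update_written update_written' written_append_blank written_encL
  encL_cons encL_length ix ix_zero ix_eq_none Rch after_eq_iterate)

/-- the tape symbol of an input letter; `none` is the separator -/
def wsym {E : Type} : Option Bool → Symb E
  | none => Symb.sep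
  | some b => Symb.bit b

/-! ### The machine -/

/-- Control states of the machine. -/
inductive St (X : Type) : Type
  | mark : St X
  | load : St X
  | put (b : Option Bool) : St X
  | run (x : X) : St X
  | unl : St X

instance {X : Type} [Finite X] : Finite (St X) := by
  refine Finite.of_surjective
    (fun x : Option (Option (Option (Option Bool ⊕ X))) => match x with
      | none => St.mark
      | some none => St.load
      | some (some none) => St.unl
      | some (some (some (Sum.inl b))) => St.put b
      | some (some (some (Sum.inr x))) => St.run x) ?_
  rintro (_ | _ | b | x | _)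
  · exact ⟨none, rfl⟩
  · exact ⟨some none, rfl⟩
  · exact ⟨some (some (some (Sum.inl b))), rfl⟩
  · exact ⟨some (some (some (Sum.inr x))), rfl⟩
  · exact ⟨some (some none), rfl⟩

section machine

variable {R Γ : Type} [Fintype R] [DecidableEq R] (A : TA R Γ) (rin rout : R) (inj : Option Bool → Γ)
  (dec : Γ → Bool)

/-- Tape `none` is the input tape, tape `some none` the output tape, tape `some (some r)` holds
the stack `r`. -/
def dl : St A.X → (Option (Option R) → Symb (Option Γ)) →
    Option (St A.X × (Option (Option R) → Symb (Option Γ) × Move))
  | St.mark, x => some (St.load, fun i => match i with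
      | some (some _) => (Symb.extra none, Move.stay)
      | i => (x i, Move.stay))
  | St.load, x => match x none with
      | Symb.bit b => some (St.put (some b), fun i =>
          if i = none ∨ i = some (some rin) then (x i, Move.right) else (x i, Move.stay))
      | Symb.sep => some (St.put none, fun i =>
          if i = none ∨ i = some (some rin) then (x i, Move.right) else (x i, Move.stay))
      | _ => some (St.run A.start, fun i => (x i, Move.stay))
  | St.put b, x => some (St.load, fun i =>
      if i = some (some rin) then (Symb.extra (some (inj b)), Move.stay) else (x i, Move.stay))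
  | St.run u, x => some
      ((match (A.δ u fun r => x (some (some r))).1 with
        | none => St.unl
        | some v => St.run v),
       fun i => match i with
        | some (some r) => (A.δ u fun r => x (some (some r))).2 r
        | i => (x i, Move.stay))
  | St.unl, x => match x (some (some rout)) with
      | Symb.extra (some g) => some (St.unl, fun i =>
          if i = some none then (Symb.bit (dec g), Move.right)
          else if i = some (some rout) then (Symb.blank, Move.left) else (x i, Move.stay))
      | _ => none

variable [Finite Γ]

/-- The machine. -/
noncomputable def machine : Machine where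
  k := Fintype.card R + 1
  out := (ix R).symm (some none)
  Q := St A.X
  finQ := by have := A.fin; infer_instance
  E := Option Γ
  finE := inferInstance
  start := St.mark
  δ := fun q r => (dl A rin rout inj dec q fun j => r ((ix R).symm j)).map fun p =>
    (p.1, fun i => p.2 (ix R i))

/-- Configuration of the machine with tapes numbered by `Option (Option R)`. -/
noncomputable def cfg (q : St A.X) (T : Option (Option R) → ℕ × (ℕ → Symb (Option Γ))) :
    (machine A rin rout inj dec).Cfg :=
  { state := q
    head := fun i => (T (ix R i)).1
    tape := fun i => (T (ix R i)).2 }

/-- effect of an action -/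
def actO (a : Option (Option R) → Symb (Option Γ) × Move)
    (T : Option (Option R) → ℕ × (ℕ → Symb (Option Γ))) :
    Option (Option R) → ℕ × (ℕ → Symb (Option Γ)) := fun i =>
  ((a i).2.app (T i).1, Function.update (T i).2 (T i).1 (a i).1)

theorem step_cfg (q : St A.X) (T : Option (Option R) → ℕ × (ℕ → Symb (Option Γ))) :
    (machine A rin rout inj dec).step (cfg A rin rout inj dec q T) =
      (dl A rin rout inj dec q fun j => (T j).2 (T j).1).map fun p =>
        cfg A rin rout inj dec p.1 (actO p.2 T) := by
  simp only [Machine.step, machine, cfg, Option.map_map]
  simp only [Equiv.apply_symm_apply]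
  rfl

/-- The tapes: input word `w` with head at `j`, output word `z` (head behind it), stack tapes
`T`. -/
def tps (w : List (Symb (Option Γ))) (j : ℕ) (z : List Bool) (T : TC R Γ) :
    Option (Option R) → ℕ × (ℕ → Symb (Option Γ))
  | none => (j, written w)
  | some none => (z.length, written (z.map Symb.bit))
  | some (some r) => T r

end machine

section phases

variable {R Γ : Type} [Fintype R] [DecidableEq R] [Finite Γ] (A : TA R Γ) (rin rout : R)
  (inj : Option Bool → Γ) (dec : Γ → Bool)

theorem init_eq (w : List (Symb (Option Γ))) :
    (machine A rin rout inj dec).init w = cfg A rin rout inj dec St.mark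
      (fun i => (0, if i = none then written w else written [])) := by
  simp only [Machine.init, cfg]
  congr 1
  funext i
  by_cases h : i = 0
  · subst h; exact ((if_pos rfl).trans (if_pos (ix_zero (R := R))).symm)
  · exact ((if_neg h).trans (if_neg (fun h' => h (ix_eq_none.1 h'))).symm)

theorem mark_step (w : List (Symb (Option Γ))) :
    Rch _ 1 ((machine A rin rout inj dec).init w)
      (cfg A rin rout inj dec St.load (tps w 0 [] (encS fun _ => []))) := by
  apply Rch.one
  rw [init_eq, step_cfg]
  simp only [dl, Option.map_some]
  congr 2
  funext i
  rcases i with _ | _ | r
  · simp [actO, tps, Move.app]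
  · simp [actO, tps, Move.app]
  · simp only [actO, tps, Move.app, encS]
    simp only [reduceCtorEq, if_false, List.length_nil]
    congr 1
    exact update_written [] (Symb.extra none)

/-- the store in which the reversed word `v` has been loaded -/
def ld (rin : R) (inj : Option Bool → Γ) (v : List (Option Bool)) : Store R Γ :=
  Function.update (fun _ => []) rin ((v.map inj).reverse)

omit [Fintype R] [Finite Γ] in
theorem ld_nil : ld rin inj [] = fun _ => [] := by
  simp [ld]

theorem load_step (v₁ : List (Option Bool)) (b : Option Bool) (v₂ : List (Option Bool)) :
    Rch _ 2 (cfg A rin rout inj dec St.load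
        (tps ((v₁ ++ b :: v₂).map wsym) v₁.length [] (encS (ld rin inj v₁))))
      (cfg A rin rout inj dec St.load
        (tps ((v₁ ++ b :: v₂).map wsym) (v₁ ++ [b]).length [] (encS (ld rin inj (v₁ ++ [b]))))) := by
  have h1 : Rch _ 1 (cfg A rin rout inj dec St.load
        (tps ((v₁ ++ b :: v₂).map wsym) v₁.length [] (encS (ld rin inj v₁))))
      (cfg A rin rout inj dec (St.put b)
        (tps ((v₁ ++ b :: v₂).map wsym) (v₁ ++ [b]).length []
          (fun r => if r = rin then (v₁.length + 1, written (encL ((v₁.map inj).reverse)))
            else (0, written (encL []))))) := by
    apply Rch.one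
    rw [step_cfg]
    have hr : written ((v₁ ++ b :: v₂).map (wsym (E := Option Γ))) v₁.length = wsym b := by
      simp [written]
    rcases b with _ | b
    all_goals
      simp only [dl, tps, hr, wsym, Option.map_some]
      congr 2
      funext i
      rcases i with _ | _ | r
      · simp [actO, tps, Move.app]
      · simp [actO, tps, Move.app]
      · by_cases h : r = rin
        · subst h
          simp [actO, tps, Move.app, encS, ld]
        · simp [actO, tps, Move.app, encS, ld, h]
  refine (h1.trans (Rch.one ?_)).cast rfl rfl
  rw [step_cfg]
  simp only [dl, Option.map_some]
  congr 2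
  funext i
  rcases i with _ | _ | r
  · simp [actO, tps, Move.app]
  · simp [actO, tps, Move.app]
  · by_cases h : r = rin
    · subst h
      have h3 := update_written (encL ((v₁.map inj).reverse)) (Symb.extra (some (inj b)))
      rw [encL_length] at h3
      simp only [List.length_reverse, List.length_map] at h3
      simp only [actO, tps, Move.app, encS, ld, if_true, Function.update_self, h3]
      simp [encL_cons]
    · simp [actO, tps, Move.app, encS, ld, h]

theorem load_all (v₂ v₁ : List (Option Bool)) :
    Rch _ (2 * v₂.length + 1) (cfg A rin rout inj dec St.load
        (tps ((v₁ ++ v₂).map wsym) v₁.length [] (encS (ld rin inj v₁))))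
      (cfg A rin rout inj dec (St.run A.start)
        (tps ((v₁ ++ v₂).map wsym) (v₁ ++ v₂).length [] (encS (ld rin inj (v₁ ++ v₂))))) := by
  induction v₂ generalizing v₁ with
  | nil =>
    apply Rch.one
    rw [step_cfg]
    have hr : written ((v₁ ++ []).map (wsym (E := Option Γ))) v₁.length = Symb.blank := by
      simp [written]
    simp only [dl, tps, hr, Option.map_some]
    congr 2
    funext i
    rcases i with _ | _ | r
    · simp [actO, tps, Move.app]
    · simp [actO, tps, Move.app]
    · simp [actO, tps, Move.app]
  | cons b v₂ ih =>
    have h := ih (v₁ ++ [b])
    simp only [List.append_assoc, List.singleton_append] at h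
    exact ((load_step A rin rout inj dec v₁ b v₂).trans
      (by simpa [List.append_assoc] using h)).cast (by simp; omega) rfl

theorem run_all {w : List (Symb (Option Γ))} {j : ℕ} {z : List Bool} {u : A.X} {T T' : TC R Γ}
    {n : ℕ} (h : A.ExitsIn u T T' n) :
    Rch _ n (cfg A rin rout inj dec (St.run u) (tps w j z T))
      (cfg A rin rout inj dec St.unl (tps w j z T')) := by
  induction h with
  | @last u T a h =>
    apply Rch.one
    rw [step_cfg]
    have h' : (A.δ u fun r => (T r).2 (T r).1) = (none, a) := h
    simp only [dl, tps, h', Option.map_some]
    congr 2
    funext i
    rcases i with _ | _ | r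
    · simp [actO, tps, Move.app]
    · simp [actO, tps, Move.app]
    · simp [actO, tps, TC.act]
  | @step u v T T' a n h _ ih =>
    have h' : (A.δ u fun r => (T r).2 (T r).1) = (some v, a) := h
    refine ((Rch.one ?_).trans ih).cast (by omega) rfl
    rw [step_cfg]
    simp only [dl, tps, h', Option.map_some]
    congr 2
    funext i
    rcases i with _ | _ | r
    · simp [actO, tps, Move.app]
    · simp [actO, tps, Move.app]
    · simp [actO, tps, TC.act]

theorem unl_all {w : List (Symb (Option Γ))} {j : ℕ} {z : List Bool} {T : TC R Γ} (l : List Γ)
    (hl : T rout = (l.length, written (encL l))) :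
    ∃ T' : TC R Γ, Rch _ l.length (cfg A rin rout inj dec St.unl (tps w j z T))
      (cfg A rin rout inj dec St.unl (tps w j (z ++ l.map dec) T')) ∧
      T' rout = (0, written (encL [])) := by
  induction l generalizing z T with
  | nil => exact ⟨T, by simpa using Rch.refl _, hl⟩
  | cons g l ih =>
    have h1 : Rch _ 1 (cfg A rin rout inj dec St.unl (tps w j z T))
        (cfg A rin rout inj dec St.unl (tps w j (z ++ [dec g])
          (Function.update T rout (l.length, written (encL l))))) := by
      apply Rch.one
      rw [step_cfg]
      have hr : (T rout).2 (T rout).1 = Symb.extra (some g) := by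
        rw [hl]; simpa using written_encL (g :: l)
      simp only [dl, tps, hr, Option.map_some]
      congr 2
      funext i
      rcases i with _ | _ | r
      · simp [actO, tps, Move.app]
      · have h3 := update_written (z.map (Symb.bit (E := Option Γ))) (Symb.bit (dec g))
        simp only [List.length_map] at h3
        simp [actO, tps, Move.app, h3]
      · by_cases h : r = rout
        · subst h
          have h3 := update_written' (encL l) (Symb.extra (some g)) Symb.blank
          rw [encL_length, written_append_blank, ← encL_cons] at h3
          simp [actO, tps, Move.app, hl, h3]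
        · simp [actO, tps, Move.app, h]
    obtain ⟨T', h2, h3⟩ := ih (z := z ++ [dec g])
      (T := Function.update T rout (l.length, written (encL l))) (by simp)
    exact ⟨T', (h1.trans h2).cast (by simp; omega) (by simp), h3⟩

theorem unl_halt {w : List (Symb (Option Γ))} {j : ℕ} {z : List Bool} {T : TC R Γ}
    (hl : T rout = (0, written (encL []))) :
    (machine A rin rout inj dec).step (cfg A rin rout inj dec St.unl (tps w j z T)) = none := by
  rw [step_cfg]
  have hr : (T rout).2 (T rout).1 = Symb.extra none := by
    rw [hl]; simpa using written_encL ([] : List Γ)
  simp only [dl, tps, hr, Option.map_none]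

/-- **The machine computes what the automaton computes.** -/
theorem machine_haltsAt (v : List (Option Bool)) {n : ℕ} {T' : TC R Γ}
    (h : A.ExitsIn A.start (encS (Function.update (fun _ => []) rin ((v.map inj).reverse))) T' n)
    (l : List Γ) (hl : T' rout = (l.length, written (encL l))) :
    ∃ c, (machine A rin rout inj dec).HaltsAt (v.map wsym) (2 * v.length + 2 + n + l.length) c ∧
      c.tape (machine A rin rout inj dec).out = written ((l.map dec).map Symb.bit) := by
  have h1 := mark_step A rin rout inj dec (v.map wsym)
  have h2 := load_all A rin rout inj dec v []
  rw [ld_nil] at h2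
  simp only [List.nil_append, List.length_nil] at h2
  have h3 := run_all A rin rout inj dec (w := v.map wsym) (j := v.length) (z := []) h
  obtain ⟨T'', h4, h5⟩ := unl_all A rin rout inj dec (w := v.map wsym) (j := v.length)
    (z := []) l hl
  refine ⟨cfg A rin rout inj dec St.unl (tps (v.map wsym) v.length ([] ++ l.map dec) T''),
    ⟨?_, unl_halt A rin rout inj dec h5⟩, ?_⟩
  · rw [after_eq_iterate]
    exact (((h1.trans h2).trans h3).trans h4).cast (by omega) rfl
  · simp [cfg, machine, tps]

end phases

end Vale.Agent.P338.WrapM
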